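import Vale.Agent.P296.Ample.Move
import Vale.Agent.P296.Statement

/-!
# P296: embedding sections upstairs make the bundle on the surface ample

An upstairs section is read in the frame of the chart `a` at the lift given by that chart. The
deck moves give the compatibility on overlaps, the identifications of lifts give back the point of
the surface and the line in the fibre.
-/

noncomputable section
namespace Vale.Agent.P296.Ample
open Model Surf Filter Topology
open scoped Manifold ContDiff Matrix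

variable {D : ModelData} {τ : ℂ} {q : ℕ}

lemma stepOK_inv {A w : ℂ} {a b : Bool} (h : stepOK A a b w) :
    stepOK (-A) b a (step A a b w) := by
  cases a <;> cases b <;> simp only [step, stepOK] at h ⊢
  · exact inv_ne_zero h
  · intro h0
    field_simp at h0
    exact one_ne_zero (by linear_combination h0 : (1 : ℂ) = 0)
  · rw [mul_div, one_add_div h, div_ne_zero_iff]
    exact ⟨by ring_nf; norm_num, h⟩

/-- The change of dual coordinates is homogeneous. -/
lemma change_smul (k : ℤ) (a b : Bool) (z u c : ℂ) (x : V) :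
    D.change k a b z u (c • x) = c • D.change k a b z u x := by
  refine Prod.ext (funext fun n => ?_) ?_ <;>
    simp [ModelData.change] <;> ring

/-- The general identification of lifts. -/
def act (D : ModelData) (m k : ℤ) (b : Bool) (c : ℂ) (P : Pt) : Pt :=
  ⟨b, P.z + m + k * D.τ, step (k * D.α) P.inf b P.u, c • D.change k P.inf b P.z P.u P.x⟩

lemma act_zero (P : Pt) : act D 0 0 P.inf 1 P = P := by
  have h := move_zero D P
  refine Eq.trans ?_ h
  exact pt_ext rfl (by simp [act, move]) rfl (by simp [act, move])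

lemma act_act {m m' k l : ℤ} {b d : Bool} {c c' : ℂ} {P : Pt}
    (h1 : stepOK (k * D.α) P.inf b P.u) (h2 : stepOK (l * D.α) b d (step (k * D.α) P.inf b P.u)) :
    act D m' l d c' (act D m k b c P) = act D (m + m') (k + l) d (c * c') P := by
  have h3 := stepOK_trans h1 h2
  refine pt_ext rfl (by simp [act]; ring) ?_ ?_
  · simp only [act, Int.cast_add, add_mul]
    exact step_comp h1 h2
  · simp only [act, change_smul, smul_smul]
    rw [ModelData.change_comp (D := D) (m := m) (z := P.z) h1 h2 h3, mul_comm]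

/-- Related by a deck move, a change of chart and a scaling. -/
def Rel (D : ModelData) (P Q : Pt) : Prop :=
  ∃ (m k : ℤ) (c : ℂ), c ≠ 0 ∧ stepOK (k * D.α) P.inf Q.inf P.u ∧ Q = act D m k Q.inf c P

lemma rel_act (P : Pt) (m k : ℤ) (b : Bool) {c : ℂ} (hc : c ≠ 0)
    (h : stepOK (k * D.α) P.inf b P.u) : Rel D P (act D m k b c P) :=
  ⟨m, k, c, hc, h, rfl⟩

lemma Rel.refl (P : Pt) : Rel D P P :=
  ⟨0, 0, 1, one_ne_zero, by cases hb : P.inf <;> simp [stepOK], (act_zero P).symm⟩

lemma Rel.symm {P Q : Pt} (h : Rel D P Q) : Rel D Q P := by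
  obtain ⟨m, k, c, hc, hok, hQ⟩ := h
  have hu : Q.u = step (k * D.α) P.inf Q.inf P.u := congrArg Pt.u hQ
  have hok' := stepOK_inv hok
  rw [← hu, show -((k : ℂ) * D.α) = ((-k : ℤ) : ℂ) * D.α by push_cast; ring] at hok'
  refine ⟨-m, -k, c⁻¹, inv_ne_zero hc, hok', ?_⟩
  conv_rhs => rw [hQ]
  rw [act_act hok (by rwa [← hu]), add_neg_cancel, add_neg_cancel, mul_inv_cancel₀ hc, act_zero]

lemma Rel.trans {P Q R : Pt} (h : Rel D P Q) (h' : Rel D Q R) : Rel D P R := by
  obtain ⟨m, k, c, hc, hok, hQ⟩ := h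
  obtain ⟨m', l, c', hc', hok', hR⟩ := h'
  have hu : Q.u = step (k * D.α) P.inf Q.inf P.u := congrArg Pt.u hQ
  rw [hu] at hok'
  refine ⟨m + m', k + l, c * c', mul_ne_zero hc hc', ?_, ?_⟩
  · push_cast
    rw [add_mul]
    exact stepOK_trans hok hok'
  · rw [← act_act hok hok', ← hQ]
    exact hR

namespace Matches

variable (M : Matches D τ q)
include M

lemma same_act (P : Pt) (m k : ℤ) (b : Bool) (h : stepOK (k * D.α) P.inf b P.u) :
    Same τ q P (act D m k b 1 P) := by
  have h1 := (M.same_move P k b h).trans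
    (M.same_shift b (P.z + k * D.τ) _ (D.change k P.inf b P.z P.u P.x) m)
  rwa [show act D m k b 1 P = ⟨b, P.z + k * D.τ + m, step (k * D.α) P.inf b P.u,
    D.change k P.inf b P.z P.u P.x⟩ from pt_ext rfl (by simp [act]; ring) rfl (by simp [act])]

lemma rel_of_samePoint {P Q : Pt} (h : SamePoint τ q P Q) : Rel D P Q := by
  have act1 : ∀ (P : Pt) (k : ℤ) (b : Bool), act D 0 k b 1 P = move D k b P := fun P k b =>
    pt_ext rfl (by simp [act, move]) rfl (by simp [act, move])
  induction h with
  | refl P => exact Rel.refl P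
  | symm P Q _ ih => exact ih.symm
  | trans P Q R _ _ ih ih' => exact ih.trans ih'
  | rel P Q h =>
    cases h with
    | scal b z u x c hc =>
      have e := act_zero (D := D) ⟨b, z, u, x⟩
      refine ⟨0, 0, c, hc, by cases b <;> simp [stepOK], ?_⟩
      refine pt_ext rfl (congrArg Pt.z e).symm (congrArg Pt.u e).symm ?_
      have ex := congrArg Pt.x e
      simp only [act, one_smul] at ex
      simp [act, ex]
    | one b z u x =>
      have e := act_zero (D := D) ⟨b, z, u, x⟩
      refine ⟨1, 0, 1, one_ne_zero, by cases b <;> simp [stepOK], ?_⟩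
      exact pt_ext rfl (by simp [act]) (congrArg Pt.u e).symm (congrArg Pt.x e).symm
    | chart z t x ht =>
      refine ⟨0, 0, 1, one_ne_zero, by simp [stepOK, ht], ?_⟩
      rw [act1, M.move_chart z t x ht]
    | tau P hP =>
      refine ⟨0, 1, 1, one_ne_zero, ?_, ?_⟩
      · have hi : (stepTau τ q P).inf = P.inf := by rw [← M.move_one P]; rfl
        rw [hi]
        cases hb : P.inf
        · simp [stepOK]
        · simpa [stepOK, M.alpha_eq] using hP hb
      · have hi : (stepTau τ q P).inf = P.inf := by rw [← M.move_one P]; rfl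
        rw [act1, hi, M.move_one]

end Matches

/-- The pair of fibre coordinates of a vector in a frame. -/
def ofFin : (Fin 7 → ℂ) →L[ℂ] V :=
  (ContinuousLinearMap.pi fun n : Fin 6 =>
      ContinuousLinearMap.proj (R := ℂ) (φ := fun _ : Fin 7 => ℂ) n.castSucc).prod
    (ContinuousLinearMap.proj (R := ℂ) (φ := fun _ : Fin 7 => ℂ) (Fin.last 6))

lemma ofFin_apply (η : Fin 7 → ℂ) : ofFin η = (fun n => η n.castSucc, η (Fin.last 6)) := rfl

lemma ofFin_injective : Function.Injective ofFin := fun η ζ h => funext fun i => by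
  induction i using Fin.lastCases with
  | last => exact congrArg Prod.snd h
  | cast n => exact congrFun (congrArg Prod.fst h) n

/-- The lift of a point of the dual bundle in the frame of the chart `a`. -/
def ptAt (a : Idx) (x : Surf D) (η : Fin 7 → ℂ) : Pt :=
  ⟨a.2.2, chart a x 0, chart a x 1, ofFin η⟩

lemma ofFin_vecMul (a b : Idx) (x : Surf D) (η : Fin 7 → ℂ) :
    ofFin (η ᵥ* (bundle D).g a b x) =
      D.change (kk b a x) b.2.2 a.2.2 (chart b x 0) (chart b x 1) (ofFin η) := by
  refine Prod.ext (funext fun n => ?_) ?_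
  · simp [ofFin_apply, vecMul_g_castSucc, ModelData.change, cf, vf, -Fin.reduceLast]
  · simp [ofFin_apply, vecMul_g_last, ModelData.change, df, -Fin.reduceLast]

lemma ptAt_vecMul {a b : Idx} {x : Surf D} (hb : x ∈ (chart b).source) (ha : x ∈ (chart a).source)
    (η : Fin 7 → ℂ) : ptAt a x (η ᵥ* (bundle D).g a b x) =
      act D (mm b a x) (kk b a x) a.2.2 1 (ptAt b x η) := by
  refine pt_ext rfl ?_ ?_ ?_
  · exact chart_zero_transition hb ha
  · exact chart_one_transition hb ha
  · simp [ptAt, act, ofFin_vecMul]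

lemma coe_la {a : Idx} {x : Surf D} (h : x ∈ (chart a).source) :
    ((la a x : ℝ) : UnitAddCircle) = x.1 :=
  (liftR a.1).right_inv (mem_lifts h).1

lemma coe_lb {a : Idx} {x : Surf D} (h : x ∈ (chart a).source) :
    ((lb a x : ℝ) : UnitAddCircle) = x.2.1 :=
  (liftR a.2.1).right_inv (mem_lifts h).2.1

lemma chart_one_cases {a : Idx} {x : Surf D} (h : x ∈ (chart a).source) :
    (x.2.2 = OnePoint.infty ∧ a.2.2 = true ∧ chart a x 1 = 0) ∨
    ∃ p : ℂ, x.2.2 = (p : OnePoint ℂ) ∧ ((a.2.2 = false ∧ chart a x 1 = tOf a x p) ∨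
      (a.2.2 = true ∧ tOf a x p ≠ 0 ∧ chart a x 1 = (tOf a x p)⁻¹)) := by
  rcases hp : x.2.2 with _ | p
  · obtain ⟨c, d, ki⟩ := a
    obtain rfl : ki = true := kind_of_infty hp h
    exact Or.inl ⟨rfl, rfl, chart_one_infty hp⟩
  · refine Or.inr ⟨p, rfl, ?_⟩
    obtain ⟨c, d, _ | _⟩ := a
    · exact Or.inl ⟨rfl, chart_one_false hp⟩
    · exact Or.inr ⟨rfl, chart_one_true hp h⟩

lemma eq_of_rel {a b : Idx} {x y : Surf D} (ha : x ∈ (chart a).source)
    (hb : y ∈ (chart b).source) {η ζ : Fin 7 → ℂ} (h : Rel D (ptAt a x η) (ptAt b y ζ)) :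
    x = y ∧ ∃ t : ℂ, ζ ᵥ* (bundle D).g a b x = t • η := by
  obtain ⟨m, k, c, hc, hok, he⟩ := h
  have ez : chart b y 0 = chart a x 0 + m + k * D.τ := congrArg Pt.z he
  have eu : chart b y 1 = step (k * D.α) a.2.2 b.2.2 (chart a x 1) := congrArg Pt.u he
  have ex : ofFin ζ = c • D.change k a.2.2 b.2.2 (chart a x 0) (chart a x 1) (ofFin η) :=
    congrArg Pt.x he
  change stepOK (k * D.α) a.2.2 b.2.2 (chart a x 1) at hok
  rw [chart_zero, chart_zero, zOf, zOf] at ez
  have hlb : lb b y = lb a x + k := by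
    have := congrArg Complex.im ez
    simp at this
    exact mul_right_cancel₀ D.hτ (by linear_combination this)
  have hla : la b y = la a x + m := by
    rw [hlb] at ez
    push_cast at ez
    have h1 : ((la b y : ℂ)) = ((la a x + m : ℝ) : ℂ) := by push_cast; linear_combination ez
    exact_mod_cast h1
  have h1 : x.1 = y.1 := by
    rw [← coe_la ha, ← coe_la hb, hla]
    exact (QuotientAddGroup.eq_iff_sub_mem.2
      (AddSubgroup.mem_zmultiples_iff.2 ⟨m, by simp⟩)).symm
  have h2 : x.2.1 = y.2.1 := by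
    rw [← coe_lb ha, ← coe_lb hb, hlb]
    exact (QuotientAddGroup.eq_iff_sub_mem.2
      (AddSubgroup.mem_zmultiples_iff.2 ⟨k, by simp⟩)).symm
  have h3 : x.2.2 = y.2.2 := by
    rcases chart_one_cases ha with ⟨px, kx, ux⟩ | ⟨p, px, hp⟩ <;>
      rcases chart_one_cases hb with ⟨py, ky, uy⟩ | ⟨p', py, hp'⟩
    · rw [px, py]
    · rcases hp' with ⟨ky, uy⟩ | ⟨ky, hne, uy⟩
      · rw [kx, ky, ux] at hok
        simp [stepOK] at hok
      · rw [kx, ky, ux, uy] at eu
        simp [step, hne] at eu
    · rcases hp with ⟨kx, ux⟩ | ⟨kx, hne, ux⟩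
      · rw [kx, ky, ux] at hok
        rw [kx, ky, ux, uy] at eu
        simp [step] at eu
        simp [stepOK] at hok
        exact absurd eu.symm hok
      · rw [kx, ky, ux] at hok
        rw [kx, ky, ux, uy] at eu
        simp only [step, stepOK] at eu hok
        exact absurd eu.symm (div_ne_zero (inv_ne_zero hne) hok)
    · have ht : tOf b y p' = tOf a x p + k * D.α := by
        rcases hp with ⟨kx, ux⟩ | ⟨kx, hne, ux⟩ <;> rcases hp' with ⟨ky, uy⟩ | ⟨ky, hne', uy⟩ <;>
          rw [kx, ky, ux, uy] at eu <;> rw [kx, ky, ux] at hok <;>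
          simp only [step, stepOK] at eu hok
        · exact eu
        · exact inv_inj.1 eu
        · rw [eu]; field_simp
        · rw [← inv_inj, eu]
          generalize (k : ℂ) * D.α = A at hok ⊢
          generalize tOf a x p = T at hne hok ⊢
          have : T + A ≠ 0 := fun h => hok (by field_simp; linear_combination h)
          field_simp
      rw [tOf, tOf, hlb] at ht
      push_cast at ht
      rw [px, py, show p = p' by linear_combination -ht]
  obtain rfl : x = y := Prod.ext h1 (Prod.ext h2 h3)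
  refine ⟨rfl, c, ofFin_injective ?_⟩
  have hk : kk a b x = k := by
    have := lb_eq ha hb
    rw [hlb] at this
    exact_mod_cast (add_left_cancel this).symm
  have hkb : kk b a x = -k := by
    have := kk_add (D := D) ha hb ha
    rw [kk_self, hk] at this
    omega
  have hmb := chart_transition hb ha
  rw [ofFin_vecMul, ex, change_smul, map_smul, hkb]
  congr 1
  have hm : chart b x 0 = chart a x 0 + (m : ℤ) + (k : ℤ) * D.τ := by
    rw [chart_zero, chart_zero, zOf, zOf]; exact ez
  have h2' : stepOK (((-k : ℤ) : ℂ) * D.α) b.2.2 a.2.2 (chart b x 1) := by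
    rw [← hkb]; exact hmb.2
  rw [hm, eu]
  rw [eu] at h2'
  rw [ModelData.change_comp (D := D) hok h2' (stepOK_trans hok h2'), add_neg_cancel]
  exact congrArg Pt.x (move_zero D (ptAt a x η))

/-- An upstairs section in the frames of the charts. -/
def Matches.section' (M : Matches D τ q) {k : ℕ} (S : UpSection τ q k) :
    SymSection (bundle D) k where
  P := fun a x η => (ptAt (D := D) a x η).eval S
  homog a x _ := by
    have h : IsHom k fun v : V => (⟨a.2.2, chart a x 0, chart a x 1, v⟩ : Pt).eval S := by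
      cases a.2.2
      · exact S.hom _ _
      · exact S.homInf _ _
    obtain ⟨p, hp, hev⟩ := h
    refine ⟨MvPolynomial.rename (Sum.elim Fin.castSucc fun _ => Fin.last 6) p,
      hp.rename_isHomogeneous, fun η => ?_⟩
    refine (hev (ofFin η)).trans ?_
    rw [MvPolynomial.eval_rename]
    refine congrArg (fun f => MvPolynomial.eval f p) (funext fun i => ?_)
    rcases i with i | i <;> simp [ofFin_apply, -Fin.reduceLast]
  compat a b x hx η := by
    rw [ptAt_vecMul (D := D) hx.2 hx.1]
    exact ((M.same_act _ _ _ _ (chart_transition hx.2 hx.1).2).eval_eq k S).symm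
  hol a p := by
    have h1 : ContMDiffOn 𝓘(ℂ, Cn 2) 𝓘(ℂ, Cn 2) ω
        (chart (D := D) a ∘ (chartAt (Cn 2) p).symm)
        ((chartAt (Cn 2) p).target ∩ (chartAt (Cn 2) p).symm ⁻¹' (chart a).source) :=
      (contMDiffOn_of_mem_maximalAtlas (chart_mem_maximalAtlas a)).comp
        (contMDiffOn_chart_symm.mono Set.inter_subset_left) Set.inter_subset_right
    have h2 := (contMDiffOn_iff_contDiffOn.1 h1).differentiableOn (by simp)
    have h3 : Differentiable ℂ fun v : Cn 2 × V =>
        (⟨a.2.2, v.1 0, v.1 1, v.2⟩ : Pt).eval S := by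
      have hi : Differentiable ℂ fun v : Cn 2 × V => ((v.1 0, v.1 1, v.2) : ℂ × ℂ × V) := by fun_prop
      cases a.2.2
      · exact S.hol.comp hi
      · exact S.holInf.comp hi
    exact h3.comp_differentiableOn ((h2.comp differentiableOn_fst fun w hw => hw.1).prodMk
      (ofFin.differentiable.comp differentiable_snd).differentiableOn)

/-- Embedding sections upstairs make the bundle ample. -/
theorem ample_of_embeds (M : Matches D τ q) {k N : ℕ} (hk : 0 < k)
    (S : Fin N → UpSection τ q k) (hS : Embeds S) : Vale.Agent.P296.Ample (bundle D) := by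
  obtain ⟨hne, hsep, himm⟩ := hS
  have h0 : ∀ {η : Fin 7 → ℂ}, η ≠ 0 → ofFin η ≠ 0 := fun hη h =>
    hη (ofFin_injective (h.trans (map_zero _).symm))
  refine ⟨k, N, fun i => M.section' (S i), hk, fun a x _ η hη => hne (ptAt a x η) (h0 hη),
    fun a b x hx y hy η ζ hη hζ c hc => ?_, fun a x hx η hη ξ ν c hc => ?_⟩
  · exact eq_of_rel hx hy (M.rel_of_samePoint
      (hsep (ptAt a x η) (ptAt b y ζ) (h0 hη) (h0 hζ) c hc))
  · set e := chartAt (Cn 2) x
    have hax : x ∈ (chart (D := D) a).source := hx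
    have hex : x ∈ e.source := mem_chart_source _ x
    set φ : Cn 2 → Cn 2 := chart (D := D) a ∘ e.symm
    set ψ : Cn 2 → Cn 2 := e ∘ (chart (D := D) a).symm
    have hφ : DifferentiableAt ℂ φ (e x) := by
      have h1 : ContMDiffAt 𝓘(ℂ, Cn 2) 𝓘(ℂ, Cn 2) ω φ (e x) := by
        refine ContMDiffAt.comp (e x) ?_ ((contMDiffOn_chart_symm (x := x)).contMDiffAt
          (e.open_target.mem_nhds (e.map_source hex)))
        rw [e.left_inv hex]
        exact contMDiffAt_of_mem_maximalAtlas (chart_mem_maximalAtlas a) hax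
      exact (contMDiffAt_iff_contDiffAt.1 h1).differentiableAt (by simp)
    have hψ : DifferentiableAt ℂ ψ (φ (e x)) := by
      have hφx : φ (e x) = chart a x := by simp [φ, e.left_inv hex]
      rw [hφx]
      have h1 : ContMDiffAt 𝓘(ℂ, Cn 2) 𝓘(ℂ, Cn 2) ω ψ (chart a x) := by
        refine ContMDiffAt.comp (chart a x) ?_
          ((contMDiffOn_symm_of_mem_maximalAtlas (chart_mem_maximalAtlas a)).contMDiffAt
            ((chart a).open_target.mem_nhds ((chart a).map_source hax)))
        rw [(chart a).left_inv hax]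
        exact contMDiffAt_of_mem_maximalAtlas (IsManifold.chart_mem_maximalAtlas x) hex
      exact (contMDiffAt_iff_contDiffAt.1 h1).differentiableAt (by simp)
    have hid : (ψ ∘ φ) =ᶠ[𝓝 (e x)] id := by
      filter_upwards [(e.isOpen_inter_preimage_symm (chart (D := D) a).open_source).mem_nhds
        ⟨e.map_source hex, by rwa [Set.mem_preimage, e.left_inv hex]⟩] with w hw
      simp [φ, ψ, (chart (D := D) a).left_inv hw.2, e.right_inv hw.1]
    set ξ' := fderiv ℂ φ (e x) ξ with hξ'
    have hφc : ∀ i, HasFDerivAt (fun w => φ w i)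
        ((PiLp.proj 2 (fun _ : Fin 2 => ℂ) i).comp (fderiv ℂ φ (e x))) (e x) := fun i =>
      HasFDerivAt.comp (g := fun y : Cn 2 => y i) (e x)
        (PiLp.proj 2 (fun _ : Fin 2 => ℂ) i).hasFDerivAt hφ.hasFDerivAt
    have hinner : HasFDerivAt (fun w : Cn 2 × (Fin 7 → ℂ) => ((φ w.1 0, φ w.1 1, ofFin w.2) : ℂ × ℂ × V))
        _ (e x, η) :=
      (HasFDerivAt.comp (g := fun v => φ v 0) (e x, η) (hφc 0) hasFDerivAt_fst).prodMk
        ((HasFDerivAt.comp (g := fun v => φ v 1) (e x, η) (hφc 1) hasFDerivAt_fst).prodMk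
          (HasFDerivAt.comp (g := ⇑ofFin) (e x, η) ofFin.hasFDerivAt hasFDerivAt_snd))
    obtain ⟨hξ, r, hr⟩ := himm a.2.2 (chart a x 0) (chart a x 1) (ofFin η) (h0 hη)
      (ξ' 0, ξ' 1) (ofFin ν) c fun i => by
      have hF : Differentiable ℂ fun p : ℂ × ℂ × V =>
          (⟨a.2.2, p.1, p.2.1, p.2.2⟩ : Pt).eval (S i) := by
        cases a.2.2
        · exact (S i).hol
        · exact (S i).holInf
      have hcomp := (hF _).hasFDerivAt.comp (e x, η) hinner
      have h := hc i
      change fderiv ℂ ((fun p : ℂ × ℂ × V => (⟨a.2.2, p.1, p.2.1, p.2.2⟩ : Pt).eval (S i)) ∘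
        fun w : Cn 2 × (Fin 7 → ℂ) => (φ w.1 0, φ w.1 1, ofFin w.2)) (e x, η) (ξ, ν) = _ at h
      rw [hcomp.fderiv] at h
      simpa [φ, e.left_inv hex, ptAt, Matches.section', ξ'] using h
    obtain ⟨hξ0, hξ1⟩ := Prod.mk.injEq .. ▸ hξ
    have hξ'0 : ξ' = 0 := by
      ext i
      fin_cases i
      · simpa using hξ0
      · simpa using hξ1
    have hd := (hψ.hasFDerivAt.comp (e x) hφ.hasFDerivAt).congr_of_eventuallyEq hid.symm
    have h1 := congrArg (fun L : Cn 2 →L[ℂ] Cn 2 => L ξ) (hd.unique (hasFDerivAt_id (e x)))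
    simp only [ContinuousLinearMap.comp_apply] at h1
    rw [← hξ', hξ'0, map_zero] at h1
    refine ⟨h1.symm, r, ofFin_injective ?_⟩
    rw [map_smul]
    exact hr

end Vale.Agent.P296.Ample
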