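import Vale.Agent.P296.Ample.UpSection
import Vale.Agent.P296.Model.Bundle

/-!
# P296: general deck moves of lifted points

`move D k c P` translates the lifted point `P` by `k` vertical periods and expresses it in the
fibre chart `c`, with the cocycle of `Surf.bundle D`. A move keeps the values of all upstairs
sections and the point of `P(E_q)`.
-/

noncomputable section
namespace Vale.Agent.P296.Ample
open Model Surf Filter Topology

/-- The data of `D` are those of the frozen model. -/
structure Matches (D : ModelData) (τ : ℂ) (q : ℕ) : Prop where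
  tau_eq : D.τ = q * τ
  theta_eq : ∀ i, D.θ i = th τ i
  alpha_eq : D.α = q * kap
  mq_eq : ∀ z, mq τ q z = Complex.exp (D.α * z + D.β)
  eP_eq : ∀ z, eP τ q z = Complex.exp (D.γ * z + D.δ)

lemma pt_ext {P Q : Pt} (h1 : P.inf = Q.inf) (h2 : P.z = Q.z) (h3 : P.u = Q.u) (h4 : P.x = Q.x) :
    P = Q := by
  cases P; cases Q; simp_all

lemma stepOK_trans {A B w : ℂ} {a b c : Bool} (h1 : stepOK A a b w)
    (h2 : stepOK B b c (step A a b w)) : stepOK (A + B) a c w := by
  cases a <;> cases b <;> cases c <;> simp only [step, stepOK] at h1 h2 ⊢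
  · rwa [← add_assoc]
  · intro h
    refine h2 ?_
    field_simp
    linear_combination h
  · exact h1
  · intro h
    refine h2 ?_
    field_simp
    linear_combination h
  · intro h
    rw [h, zero_div] at h2
    exact h2 rfl
  · intro h
    refine h2 ?_
    rw [mul_div, one_add_div h1, div_eq_zero_iff]
    left
    linear_combination h

lemma step_comp {A B w : ℂ} {a b c : Bool} (h1 : stepOK A a b w)
    (h2 : stepOK B b c (step A a b w)) :
    step B b c (step A a b w) = step (A + B) a c w := by
  have h3 := stepOK_trans h1 h2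
  cases a <;> cases b <;> cases c <;> simp only [step, stepOK] at h1 h2 h3 ⊢
  · ring
  · rw [add_assoc]
  · generalize hR : w + A = R at h1 ⊢
    field_simp
    subst hR
    ring
  · have e : 1 + B * (w + A)⁻¹ = (w + (A + B)) / (w + A) := by field_simp; ring
    rw [e]
    generalize w + A = R at h1 ⊢
    generalize w + (A + B) = S at h3 ⊢
    field_simp
  · field_simp; ring
  · have e : (1 + A * w) / w + B = (1 + (A + B) * w) / w := by field_simp; ring
    rw [e, inv_div]
  · have e : 1 + B * (w / (1 + A * w)) = (1 + (A + B) * w) / (1 + A * w) := by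
      rw [mul_div, one_add_div h1]; ring
    rw [e]
    generalize 1 + A * w = R at h1 ⊢
    field_simp
  · have e : 1 + B * (w / (1 + A * w)) = (1 + (A + B) * w) / (1 + A * w) := by
      rw [mul_div, one_add_div h1]; ring
    rw [e]
    generalize 1 + A * w = R at h1 ⊢
    field_simp

lemma step_self {w : ℂ} {a : Bool} : step 0 a a w = w := by cases a <;> simp [step]

variable (D : ModelData)

/-- Translate by `k` periods and pass to the fibre chart `c`. -/
def move (k : ℤ) (c : Bool) (P : Pt) : Pt :=
  ⟨c, P.z + k * D.τ, step (k * D.α) P.inf c P.u, D.change k P.inf c P.z P.u P.x⟩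

lemma move_zero (P : Pt) : move D 0 P.inf P = P := by
  refine pt_ext rfl (by simp [move]) (by simp [move, step_self]) ?_
  refine Prod.ext (funext fun n => ?_) ?_ <;>
    simp [move, ModelData.change, ModelData.coefC, ModelData.coefV, ModelData.coefD, mult_zero, tl_self, tv_self, td_self]

lemma move_move {k l : ℤ} {c d : Bool} {P : Pt} (h1 : stepOK (k * D.α) P.inf c P.u)
    (h2 : stepOK (l * D.α) c d (step (k * D.α) P.inf c P.u)) :
    move D l d (move D k c P) = move D (k + l) d P := by
  have hA : ((k + l : ℤ) : ℂ) * D.α = k * D.α + l * D.α := by push_cast; ring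
  refine pt_ext rfl (by simp [move]; ring) (by simp only [move]; rw [hA, step_comp h1 h2]) ?_
  have h := ModelData.change_comp (D := D) (m := 0) (z := P.z) h1 h2 (stepOK_trans h1 h2) P.x
  simpa [move] using h

/-- The same point with the same values of all upstairs sections. -/
structure Same (τ : ℂ) (q : ℕ) (P Q : Pt) : Prop where
  eval_eq : ∀ k (S : UpSection τ q k), Q.eval S = P.eval S
  samePoint : SamePoint τ q P Q

variable {D} {τ : ℂ} {q : ℕ}

lemma Same.refl (P : Pt) : Same τ q P P := ⟨fun _ _ => rfl, Relation.EqvGen.refl P⟩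

lemma Same.symm {P Q : Pt} (h : Same τ q P Q) : Same τ q Q P :=
  ⟨fun k S => (h.eval_eq k S).symm, Relation.EqvGen.symm _ _ h.samePoint⟩

lemma Same.trans {P Q R : Pt} (h : Same τ q P Q) (h' : Same τ q Q R) : Same τ q P R :=
  ⟨fun k S => (h'.eval_eq k S).trans (h.eval_eq k S),
    Relation.EqvGen.trans _ _ _ h.samePoint h'.samePoint⟩

namespace Matches

variable (M : Matches D τ q)
include M

lemma thd0 (n : Fin 6) (z : ℂ) : thd τ 0 z n = D.θ n z := by simp [thd, M.theta_eq]

lemma thd1 (n : Fin 6) (z : ℂ) : thd τ 1 z n = D.θ₁ n z := by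
  simp [thd, ModelData.θ₁, iteratedDeriv_one, M.theta_eq]

lemma thd2 (n : Fin 6) (z : ℂ) : thd τ 2 z n = D.θ₂ n z := by
  simp [thd, ModelData.θ₂, ModelData.θ₁, iteratedDeriv_succ, iteratedDeriv_zero, M.theta_eq]

lemma mult_mq (z : ℂ) : mult D.τ D.α D.β 1 z = mq τ q z := by simp [mult, M.mq_eq]

lemma mult_eP (z : ℂ) : mult D.τ D.γ D.δ 1 z = eP τ q z := by simp [mult, M.eP_eq]

lemma move_chart (z t : ℂ) (x : V) (ht : t ≠ 0) :
    move D 0 true ⟨false, z, t, x⟩ = ⟨true, z, t⁻¹, atInfty τ z t x⟩ := by
  refine pt_ext rfl (by simp [move]) (by simp [move, step]) (Prod.ext (funext fun n => ?_) ?_)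
  · simp [move, ModelData.change, ModelData.coefC, ModelData.coefV, mult_zero, tl, tv, atInfty, Gp, M.thd0, M.thd1, M.thd2]
    field_simp
    try ring
  · simp [move, ModelData.change, ModelData.coefD, mult_zero, td, atInfty]
    ring

lemma move_one (P : Pt) : move D 1 P.inf P = stepTau τ q P := by
  obtain ⟨_ | _, z, u, x⟩ := P
  · refine pt_ext rfl (by simp [move, stepTau, M.tau_eq]) (by simp [move, step, stepTau, M.alpha_eq])
      (Prod.ext (funext fun n => ?_) ?_)
    · simp [move, ModelData.change, ModelData.coefC, ModelData.coefV, stepTau, desc, tl, tv, M.mult_eP]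
    · simp [move, ModelData.change, ModelData.coefD, stepTau, desc, td, M.mult_eP, M.mult_mq]
      try left
      try ring
  · refine pt_ext rfl (by simp [move, stepTau, M.tau_eq]) (by simp [move, step, stepTau, M.alpha_eq])
      (Prod.ext (funext fun n => ?_) ?_)
    · simp [move, ModelData.change, ModelData.coefC, ModelData.coefV, stepTau, descI, tl, tv, M.mult_eP, M.thd0, M.thd1, M.thd2, ← M.alpha_eq]
      ring
    · simp [move, ModelData.change, ModelData.coefD, stepTau, descI, td, M.mult_eP, M.mult_mq, ← M.alpha_eq]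
      ring

lemma same_chart {P : Pt} (hb : P.inf = false) (hu : P.u ≠ 0) : Same τ q P (move D 0 true P) := by
  obtain ⟨b, z, t, x⟩ := P
  obtain rfl : b = false := hb
  rw [M.move_chart z t x hu]
  exact ⟨fun k S => S.glue z t x hu, Relation.EqvGen.rel _ _ (Step.chart z t x hu)⟩

lemma same_chart' {P : Pt} (hb : P.inf = true) (hu : P.u ≠ 0) : Same τ q P (move D 0 false P) := by
  obtain ⟨b, z, w, x⟩ := P
  obtain rfl : b = true := hb
  set Q := move D 0 false ⟨true, z, w, x⟩ with hQ
  have hQu : Q.u ≠ 0 := by simp [hQ, move, step, hu]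
  have h := M.same_chart (P := Q) rfl hQu
  rw [hQ, move_move D (P := ⟨true, z, w, x⟩) (by simpa [stepOK] using hu)
    (by simp [step, stepOK, hu]), show (0 : ℤ) + 0 = 0 from rfl, move_zero D ⟨true, z, w, x⟩] at h
  exact h.symm

lemma same_finite {P : Pt} (hb : P.inf = false) (k : ℤ) : Same τ q P (move D k false P) := by
  have one : ∀ Q : Pt, Q.inf = false → Same τ q Q (move D 1 false Q) := fun Q hQ => by
    have h := M.move_one Q
    rw [hQ] at h
    rw [h]
    obtain ⟨b, z, t, x⟩ := Q
    obtain rfl : b = false := hQ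
    exact ⟨fun k S => S.perTau z t x, Relation.EqvGen.rel _ _ (Step.tau _ (by simp))⟩
  induction k using Int.induction_on with
  | zero =>
    have h := move_zero D P
    rw [hb] at h
    rw [h]
    exact Same.refl P
  | succ k ih =>
    have h := one (move D k false P) rfl
    rw [move_move D (by simp [hb, stepOK]) (by simp [stepOK])] at h
    exact ih.trans h
  | pred k ih =>
    have h := one (move D (-k - 1) false P) rfl
    rw [move_move D (by simp [hb, stepOK]) (by simp [stepOK]), sub_add_cancel] at h
    exact ih.trans h.symm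

lemma same_of_finite {P : Pt} (hb : P.inf = false) (k : ℤ) (c : Bool)
    (h : stepOK (k * D.α) P.inf c P.u) : Same τ q P (move D k c P) := by
  cases c
  · exact M.same_finite hb k
  · rw [hb] at h
    have hu : (move D k false P).u ≠ 0 := by simpa [move, hb, step, stepOK] using h
    have h2 := M.same_chart (P := move D k false P) rfl hu
    rw [move_move D (by simp [hb, stepOK]) (by simpa [hb, step, stepOK] using h), add_zero] at h2
    exact (M.same_finite hb k).trans h2

lemma same_of_ne {P : Pt} (hb : P.inf = true) (hu : P.u ≠ 0) (k : ℤ) (c : Bool)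
    (h : stepOK (k * D.α) P.inf c P.u) : Same τ q P (move D k c P) := by
  have h2 : stepOK (k * D.α) false c (step 0 true false P.u) := by
    rw [hb] at h
    cases c <;> simp only [step, stepOK] at h ⊢
    intro h0
    refine h ?_
    field_simp at h0
    linear_combination h0
  have h3 := M.same_of_finite (P := move D 0 false P) rfl k c (by simpa [move, hb] using h2)
  rw [move_move D (by simpa [hb, stepOK] using hu) (by simpa [move, hb] using h2), zero_add] at h3
  exact (M.same_chart' hb hu).trans h3

lemma eval_stepTau_infty (z : ℂ) (x : V) (k : ℕ) (S : UpSection τ q k) :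
    (stepTau τ q ⟨true, z, 0, x⟩).eval S = (⟨true, z, 0, x⟩ : Pt).eval S := by
  have hc : ∀ F : ℂ × ℂ × V → ℂ, Continuous F → ∀ (g : ℂ → ℂ × ℂ × V) (G : ℂ → ℂ),
      ContinuousAt g 0 → ContinuousAt G 0 → (∀ᶠ w in 𝓝[≠] (0 : ℂ), F (g w) = G w) →
      F (g 0) = G 0 := fun F hF g G hg hG h =>
    tendsto_nhds_unique (((hF.continuousAt.comp hg).tendsto.mono_left nhdsWithin_le_nhds).congr' h)
      (hG.tendsto.mono_left nhdsWithin_le_nhds)
  have h1 : ∀ᶠ w in 𝓝[≠] (0 : ℂ), 1 + (q : ℂ) * kap * w ≠ 0 :=
    Filter.Eventually.filter_mono nhdsWithin_le_nhds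
      ((by fun_prop : Continuous fun w : ℂ => 1 + (q : ℂ) * kap * w).continuousAt.eventually_ne
        (by simp))
  have h2 : (1 : ℂ) + (q : ℂ) * kap * 0 ≠ 0 := by simp
  refine hc (fun p => S.Pinf p.1 p.2.1 p.2.2) S.holInf.continuous
    (fun w => (z + q * τ, w / (1 + q * kap * w), descI τ q z w x))
    (fun w => S.Pinf z w x) ?_ ?_ ?_
  · refine continuousAt_const.prodMk (ContinuousAt.prodMk (by fun_prop (disch := simp)) ?_)
    simp only [descI]
    fun_prop (disch := simp)
  · exact (S.holInf.continuous.comp
      (continuous_const.prodMk (continuous_id.prodMk continuous_const))).continuousAt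
  · filter_upwards [h1, self_mem_nhdsWithin] with w hw hw0
    have h := (M.same_of_ne (P := ⟨true, z, w, x⟩) rfl hw0 1 true
      (by simpa [stepOK, M.alpha_eq] using hw)).eval_eq k S
    rw [show move D 1 true ⟨true, z, w, x⟩ = stepTau τ q ⟨true, z, w, x⟩ from
      M.move_one ⟨true, z, w, x⟩] at h
    simpa [Pt.eval, stepTau] using h

lemma same_infty {P : Pt} (hb : P.inf = true) (hu : P.u = 0) (k : ℤ) :
    Same τ q P (move D k true P) := by
  have one : ∀ Q : Pt, Q.inf = true → Q.u = 0 → Same τ q Q (move D 1 true Q) := by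
    intro Q hQ hQu
    have h := M.move_one Q
    rw [hQ] at h
    rw [h]
    obtain ⟨b, z, w, x⟩ := Q
    obtain rfl : b = true := hQ
    obtain rfl : w = 0 := hQu
    exact ⟨M.eval_stepTau_infty z x, Relation.EqvGen.rel _ _ (Step.tau _ (by simp))⟩
  have hk : ∀ k : ℤ, (move D k true P).u = 0 := fun k => by simp [move, hb, hu, step]
  have ok : ∀ k : ℤ, stepOK (k * D.α) P.inf true P.u := fun k => by simp [hb, hu, stepOK]
  induction k using Int.induction_on with
  | zero =>
    have h := move_zero D P
    rw [hb] at h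
    rw [h]
    exact Same.refl P
  | succ k ih =>
    have h := one (move D k true P) rfl (hk k)
    rw [move_move D (ok k) (by simp [hb, hu, step, stepOK])] at h
    exact ih.trans h
  | pred k ih =>
    have h := one (move D (-k - 1) true P) rfl (hk _)
    rw [move_move D (ok _) (by simp [hb, hu, step, stepOK]), sub_add_cancel] at h
    exact ih.trans h.symm

/-- Moves keep sections and points. -/
theorem same_move (P : Pt) (k : ℤ) (c : Bool) (h : stepOK (k * D.α) P.inf c P.u) :
    Same τ q P (move D k c P) := by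
  cases hb : P.inf
  · exact M.same_of_finite hb k c h
  · rcases eq_or_ne P.u 0 with hu | hu
    · cases c
      · simp [hb, hu, stepOK] at h
      · exact M.same_infty hb hu k
    · exact M.same_of_ne hb hu k c h

lemma atInfty_add_one (z t : ℂ) (x : V) : atInfty τ (z + 1) t x = atInfty τ z t x := by
  have h : ∀ n, D.θ n (z + 1) = D.θ n z := fun n => D.per n z
  have h1 : ∀ n, D.θ₁ n (z + 1) = D.θ₁ n z := fun n => by
    simpa [mult_zero] using D.θ₁_translate n z 1 0
  have h2 : ∀ n, D.θ₂ n (z + 1) = D.θ₂ n z := fun n => by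
    simpa [mult_zero] using D.θ₂_translate n z 1 0
  refine Prod.ext (funext fun n => ?_) rfl
  simp [atInfty, Gp, M.thd0, M.thd1, M.thd2, h, h1, h2]

lemma Pinf_add_one {k : ℕ} (S : UpSection τ q k) (z w : ℂ) (x : V) :
    S.Pinf (z + 1) w x = S.Pinf z w x := by
  have hd : ∀ z, Continuous fun w => S.Pinf z w x := fun z =>
    S.holInf.continuous.comp (continuous_const.prodMk (continuous_id.prodMk continuous_const))
  refine congrFun (Continuous.ext_on (dense_compl_singleton (0 : ℂ)) (hd (z + 1)) (hd z)
    fun v hv => ?_) w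
  have hv' : v⁻¹ ≠ 0 := inv_ne_zero hv
  have e := move_move D (k := 0) (l := 0) (c := false) (d := true) (P := ⟨true, z, v, x⟩)
    (by simpa [stepOK] using hv) (by simpa [step, stepOK] using hv)
  rw [show (0 : ℤ) + 0 = 0 from rfl, move_zero D ⟨true, z, v, x⟩] at e
  set y := (move D 0 false ⟨true, z, v, x⟩).x
  have e' : move D 0 false ⟨true, z, v, x⟩ = ⟨false, z, v⁻¹, y⟩ :=
    pt_ext rfl (by simp [move]) (by simp [move, step]) rfl
  rw [e', M.move_chart _ _ _ hv'] at e
  have hx : atInfty τ z v⁻¹ y = x := congrArg Pt.x e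
  have g1 := S.glue (z + 1) v⁻¹ y hv'
  rw [inv_inv, M.atInfty_add_one, hx, S.per] at g1
  have g2 := S.glue z v⁻¹ y hv'
  rw [inv_inv, hx] at g2
  exact g1.trans g2.symm

/-- Horizontal periods keep sections and points. -/
theorem same_shift (b : Bool) (z u : ℂ) (x : V) (m : ℤ) :
    Same τ q ⟨b, z, u, x⟩ ⟨b, z + m, u, x⟩ := by
  have one : ∀ z, Same τ q ⟨b, z, u, x⟩ ⟨b, z + 1, u, x⟩ := fun z =>
    ⟨fun k S => by cases b <;> simp [Pt.eval, S.per, M.Pinf_add_one S],
      Relation.EqvGen.rel _ _ (Step.one b z u x)⟩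
  induction m using Int.induction_on with
  | zero => simpa using Same.refl _
  | succ m ih =>
    refine ih.trans ?_
    simpa [add_assoc] using one (z + (m : ℤ))
  | pred m ih =>
    refine ih.trans (Same.symm ?_)
    simpa [add_assoc] using one (z + (-(m : ℤ) - 1 : ℤ))

end Matches

end Vale.Agent.P296.Ample
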