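import Vale.Agent.P296.Model.Data

/-!
# P296: sections of `O(k)` on `P(E_q)`, upstairs, and the embedding property
-/

noncomputable section
namespace Vale.Agent.P296.Ample
open Model
open scoped Classical

/-- Homogeneous polynomial function of degree `k` on `V`. -/
def IsHom (k : ℕ) (f : V → ℂ) : Prop :=
  ∃ p : MvPolynomial (Fin 6 ⊕ Unit) ℂ, p.IsHomogeneous k ∧
    ∀ x : V, f x = MvPolynomial.eval (Sum.elim x.1 fun _ => x.2) p

/-- A section of `O(k)` on `P(E_q)`, lifted to the universal cover in the two charts. -/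
structure UpSection (τ : ℂ) (q k : ℕ) where
  P : ℂ → ℂ → V → ℂ
  Pinf : ℂ → ℂ → V → ℂ
  hom : ∀ z t, IsHom k (P z t)
  homInf : ∀ z s, IsHom k (Pinf z s)
  hol : Differentiable ℂ (fun p : ℂ × ℂ × V => P p.1 p.2.1 p.2.2)
  holInf : Differentiable ℂ (fun p : ℂ × ℂ × V => Pinf p.1 p.2.1 p.2.2)
  glue : ∀ z t x, t ≠ 0 → Pinf z t⁻¹ (atInfty τ z t x) = P z t x
  per : ∀ z t x, P (z + 1) t x = P z t x
  perTau : ∀ z t x, P (z + q * τ) (t + q * kap) (desc τ q z x) = P z t x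

/-- A point of the universal cover with fibre coordinates: chart `t` (`inf = false`) or `s`. -/
structure Pt where
  inf : Bool
  z : ℂ
  u : ℂ
  x : V

def Pt.eval {τ : ℂ} {q k : ℕ} (S : UpSection τ q k) (P : Pt) : ℂ :=
  if P.inf then S.Pinf P.z P.u P.x else S.P P.z P.u P.x

/-- The deck generator `(z + qτ)` and its fibre action, in either chart. -/
def stepTau (τ : ℂ) (q : ℕ) (P : Pt) : Pt :=
  if P.inf then ⟨true, P.z + q * τ, P.u / (1 + q * kap * P.u), descI τ q P.z P.u P.x⟩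
  else ⟨false, P.z + q * τ, P.u + q * kap, desc τ q P.z P.x⟩

/-- Elementary identifications of lifts; the fibre point matters up to a scalar only. -/
inductive Step (τ : ℂ) (q : ℕ) : Pt → Pt → Prop
  | scal (b : Bool) (z u : ℂ) (x : V) (c : ℂ) (hc : c ≠ 0) : Step τ q ⟨b, z, u, x⟩ ⟨b, z, u, c • x⟩
  | one (b : Bool) (z u : ℂ) (x : V) : Step τ q ⟨b, z, u, x⟩ ⟨b, z + 1, u, x⟩
  | chart (z t : ℂ) (x : V) (ht : t ≠ 0) :
      Step τ q ⟨false, z, t, x⟩ ⟨true, z, t⁻¹, atInfty τ z t x⟩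
  | tau (P : Pt) (hP : P.inf = true → 1 + q * kap * P.u ≠ 0) : Step τ q P (stepTau τ q P)

/-- Same point of `P(E_q)`. -/
def SamePoint (τ : ℂ) (q : ℕ) : Pt → Pt → Prop := Relation.EqvGen (Step τ q)

/-- The sections embed `P(E_q)`: no common zero, separate points, immersive modulo scaling. -/
def Embeds {τ : ℂ} {q k : ℕ} {N : ℕ} (S : Fin N → UpSection τ q k) : Prop :=
  (∀ P : Pt, P.x ≠ 0 → ∃ i, P.eval (S i) ≠ 0) ∧
  (∀ P Q : Pt, P.x ≠ 0 → Q.x ≠ 0 → ∀ c : ℂ, (∀ i, Q.eval (S i) = c * P.eval (S i)) →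
    SamePoint τ q P Q) ∧
  (∀ (b : Bool) (z u : ℂ) (x : V), x ≠ 0 → ∀ (ξ : ℂ × ℂ) (ν : V) (c : ℂ),
    (∀ i, fderiv ℂ (fun p : ℂ × ℂ × V => (⟨b, p.1, p.2.1, p.2.2⟩ : Pt).eval (S i)) (z, u, x)
        (ξ.1, ξ.2, ν) = c * (⟨b, z, u, x⟩ : Pt).eval (S i)) →
    ξ = 0 ∧ ∃ r : ℂ, ν = r • x)

/-!
Target (in `Ample/Main.lean`):
`theorem exists_embeds : ∃ τ : ℂ, 0 < τ.im ∧ ∀ q : ℕ, 0 < q →
   ∃ (k N : ℕ) (S : Fin N → UpSection τ q k), 0 < k ∧ Embeds S`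
-/

end Vale.Agent.P296.Ample
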