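import Vale.Agent.P296.Ample.Bridge
import Vale.Agent.P296.Main

/-!
# P296: the ampleness bridge for the counterexample
-/

noncomputable section
namespace Vale.Agent.P296.Assembly
open Model

/-- The target `AmpleBridge` holds. -/
theorem ampleBridge : AmpleBridge := fun τ hτ q hq _k _N S hk hS =>
  Ample.ample_of_embeds (modelData_matches τ hτ q hq) hk S hS

end Vale.Agent.P296.Assembly
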