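import Vale.Agent.P296.Ample.Fibre
import Vale.Agent.P296.Ample.Move
import Vale.Agent.P296.Model.Inst
import Vale.Agent.P296.Model.Lemmas

/-!
# P296: both charts of a fibre, and moving a point over a translate of its base point
-/

noncomputable section

namespace Vale.Agent.P296.Ample

open Model Finset Matrix Surf

variable {τ : ℂ}

/-- The jets `θ, θ', θ''` are independent at every point. -/
theorem indep3_thd (hτ : 0 < τ.im) (z : ℂ) :
    Indep3 (thd τ 0 z) (thd τ 1 z) (thd τ 2 z) := fun x y u h => by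
  have h' := thd_independent hτ z (x := ![x, y, u, 0, 0]) (by simpa [Fin.sum_univ_five] using h)
  exact ⟨congrFun h' 0, congrFun h' 1, congrFun h' 2⟩

/-- A linear function in the chart at infinity. -/
theorem lin_atInfty {z t : ℂ} (ht : t ≠ 0) {p0 p1 p2 : Fin 6 → ℂ}
    (hp : Adm (thd τ 0 z) (thd τ 1 z) (thd τ 2 z) p0 p1 p2) (x : V) :
    lin (thd τ 2 z) (thd τ 1 z) p2 p1 p0 t⁻¹ (atInfty τ z t x).1 (atInfty τ z t x).2 =
      lin (thd τ 0 z) (thd τ 1 z) p0 p1 p2 t x.1 x.2 := by
  simp only [lin, atInfty, Gp, Adm, dotProduct, Fin.sum_univ_six, Pi.add_apply, Pi.smul_apply,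
    smul_eq_mul] at hp ⊢
  field_simp
  linear_combination (x.2 * t ^ 2) * hp

theorem matches_modelData (hτ : 0 < τ.im) (q : ℕ) (hq : 0 < q) :
    Matches (modelData τ hτ q hq) τ q where
  tau_eq := rfl
  theta_eq _ := rfl
  alpha_eq := rfl
  mq_eq := mq_eq_exp τ q
  eP_eq := eP_eq_exp τ q

/-- A point has a lift over any translate of its base point, finite or with `s = 0`. -/
theorem exists_moved (hτ : 0 < τ.im) {q : ℕ} (hq : 0 < q) (P : Pt) (hP : P.x ≠ 0) (a n : ℤ) :
    ∃ P' : Pt, Same τ q P P' ∧ P'.z = P.z + a + n * ((q : ℂ) * τ) ∧ P'.x ≠ 0 ∧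
      (P'.inf = true → P'.u = 0) := by
  set D := modelData τ hτ q hq with hD
  have M : Matches D τ q := matches_modelData hτ q hq
  have key : ∃ c, stepOK (n * D.α) P.inf c P.u ∧ (c = true → step (n * D.α) P.inf c P.u = 0) := by
    obtain ⟨b, z, u, x⟩ := P
    cases b
    · exact ⟨false, by simp [stepOK], by simp⟩
    · rcases eq_or_ne u 0 with hu | hu
      · exact ⟨true, by simp [stepOK, hu], by simp [step, hu]⟩
      · exact ⟨false, by simpa [stepOK] using hu, by simp⟩
  obtain ⟨c, hc, hc0⟩ := key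
  have h1 := M.same_move P n c hc
  set Q := move D n c P with hQ
  refine ⟨⟨Q.inf, Q.z + a, Q.u, Q.x⟩, h1.trans (M.same_shift Q.inf Q.z Q.u Q.x a), ?_, ?_, ?_⟩
  · simp only [hQ, move, hD, modelData_tau]
    ring
  · intro h0
    have h2 : D.change n P.inf c P.z P.u P.x = 0 := h0
    refine hP ?_
    simp only [ModelData.change, Prod.mk_eq_zero] at h2
    obtain ⟨h2, h3⟩ := h2
    have htd : td (n * D.α) P.inf c P.u ≠ 0 := by
      cases hb : P.inf <;> cases c <;> simp only [hb, stepOK] at hc <;> simp [td, hc]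
    have hd : D.coefD n P.inf c P.z P.u ≠ 0 :=
      mul_ne_zero (mul_ne_zero (inv_ne_zero (mult_ne _ _ _ _ _)) htd) (inv_ne_zero (mult_ne _ _ _ _ _))
    have hl : D.coefC n P.inf c P.z P.u ≠ 0 :=
      mul_ne_zero (inv_ne_zero (mult_ne _ _ _ _ _)) (pow_ne_zero 2 (tl_ne hc))
    have ha : P.x.2 = 0 := (mul_eq_zero.1 h3).resolve_left hd
    refine Prod.ext (funext fun i => ?_) ha
    have h4 := congrFun h2 i
    simpa [ha, hl] using h4
  · intro h
    exact hc0 h

end Vale.Agent.P296.Ample
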