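import Vale.Agent.P296.Ample.Frame
import Vale.Agent.P296.Ample.Chart

/-!
# P296: twisted frames embed `P(E_q)`

If the products of two functions linear on the fibres lie in the span of the frames, then the
twists of the frames by theta functions of degree four have no common zero, separate points and
tangents.
-/

noncomputable section

namespace Vale.Agent.P296.Ample

open Model Finset Matrix
open scoped Real

variable {τ : ℂ}

theorem tw_sum {M : Type*} {lam : ℂ} {N : ℕ} {g : Fin N → ℂ → ℂ}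
    (hg : ∀ j, Differentiable ℂ (g j)) (a : Fin N → ℂ) (Q : ℕ → ℂ × M → ℂ) (r : ℕ) (w : ℂ × M) :
    tw lam (fun x => ∑ j, a j * g j x) Q r w = ∑ j, a j * tw lam (g j) Q r w := by
  have e : ∀ k z, iteratedDeriv k (fun x => ∑ j, a j * g j x) z
      = ∑ j, a j * iteratedDeriv k (g j) z := fun k z => by
    rw [iteratedDeriv_fun_sum fun j _ => ((hg j).const_mul (a j)).contDiff.contDiffAt]
    simp only [iteratedDeriv_const_mul_field]
  simp only [tw, e, mul_sum, sum_mul]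
  rw [sum_comm]
  exact sum_congr rfl fun j _ => sum_congr rfl fun l _ => by ring

/-- A frame in one of the two charts. -/
def Frame.chart (F : Frame τ) (b : Bool) (l : ℕ) (p : ℂ × ℂ × V) : ℂ :=
  if b then F.Qi l p.1 p.2.1 p.2.2 else F.Q l p.1 p.2.1 p.2.2

theorem Frame.differentiable_chart (F : Frame τ) (b : Bool) (l : ℕ) :
    Differentiable ℂ (F.chart b l) := by
  cases b
  · exact F.hol l
  · exact F.holInf l

/-- The linear functions in one of the two charts. -/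
def linC (τ : ℂ) (b : Bool) (z : ℂ) (p : (Fin 6 → ℂ) × (Fin 6 → ℂ) × (Fin 6 → ℂ)) (u : ℂ) (x : V) :
    ℂ :=
  if b then lin (thd τ 2 z) (thd τ 1 z) p.2.2 p.2.1 p.1 u x.1 x.2
    else lin (thd τ 0 z) (thd τ 1 z) p.1 p.2.1 p.2.2 u x.1 x.2

/-- The admissible coefficients over `z`. -/
abbrev AdmC (τ z : ℂ) : Type :=
  {p : (Fin 6 → ℂ) × (Fin 6 → ℂ) × (Fin 6 → ℂ) //
    Adm (thd τ 0 z) (thd τ 1 z) (thd τ 2 z) p.1 p.2.1 p.2.2}

variable {ι : Type} [Fintype ι] {F : ι → Frame τ}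

theorem Spans.chart (hF : Spans F) (z : ℂ) (p p' : AdmC τ z) :
    ∃ c : ι → ℕ → ℂ, ∀ b u x, linC τ b z p.1 u x * linC τ b z p'.1 u x =
      ∑ i, ∑ r ∈ range ((F i).n + 1), c i r * (F i).chart b r (z, u, x) := by
  obtain ⟨c, hc⟩ := hF z _ _ _ _ _ _ p.2 p'.2
  refine ⟨c, fun b u x => ?_⟩
  cases b
  · exact hc u x
  -- the same coefficients work at infinity, by continuity
  refine congrFun (Continuous.ext_on (dense_compl_singleton (0 : ℂ))
    (f := fun s => linC τ true z p.1 s x * linC τ true z p'.1 s x)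
    (g := fun s => ∑ i, ∑ r ∈ range ((F i).n + 1), c i r * (F i).Qi r z s x)
    ?_ ?_ fun v (hv : v ≠ 0) => ?_) u
  · simp only [linC, if_true, lin, dotProduct, Pi.add_apply, Pi.smul_apply, smul_eq_mul]
    fun_prop
  · exact continuous_finsetSum _ fun i _ => continuous_finsetSum _ fun r _ =>
      continuous_const.mul (((F i).holInf r).continuous.comp
        (continuous_const.prodMk (continuous_id.prodMk continuous_const)))
  have ht : v⁻¹ ≠ 0 := inv_ne_zero hv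
  have hx : atInfty τ z v⁻¹ (fromInfty τ z v x) = x := atInfty_fromInfty τ z hv x
  have e1 := lin_atInfty ht p.2 (fromInfty τ z v x)
  have e2 := lin_atInfty ht p'.2 (fromInfty τ z v x)
  rw [inv_inv, hx] at e1 e2
  simp only [linC, if_true, e1, e2, hc]
  refine sum_congr rfl fun i _ => sum_congr rfl fun r _ => ?_
  have e3 := (F i).glue r z v⁻¹ (fromInfty τ z v x) ht
  rw [inv_inv, hx] at e3
  rw [e3]

theorem linC_ne_zero (hτ : 0 < τ.im) (b : Bool) (z u : ℂ) {x : V} (hx : x ≠ 0) :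
    ∃ p : AdmC τ z, linC τ b z p.1 u x ≠ 0 := by
  have hI := indep3_thd hτ z
  have h : x.1 ≠ 0 ∨ x.2 ≠ 0 := by
    by_contra h
    push Not at h
    exact hx (Prod.ext h.1 h.2)
  cases b
  · obtain ⟨p0, p1, p2, hp, hne⟩ := lin_ne_zero hI (t := u) h
    exact ⟨⟨(p0, p1, p2), hp⟩, hne⟩
  · obtain ⟨p0, p1, p2, hp, hne⟩ := lin_ne_zero hI.swap (t := u) h
    exact ⟨⟨(p2, p1, p0), hp.swap⟩, hne⟩

theorem chart_ne_zero (hτ : 0 < τ.im) (hF : Spans F) (b : Bool) (z u : ℂ) {x : V} (hx : x ≠ 0) :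
    ∃ i r, r ≤ (F i).n ∧ (F i).chart b r (z, u, x) ≠ 0 := by
  obtain ⟨p, hp⟩ := linC_ne_zero hτ b z u hx
  obtain ⟨c, hc⟩ := hF.chart z p p
  by_contra h
  push Not at h
  refine mul_ne_zero hp hp ?_
  rw [hc]
  exact sum_eq_zero fun i _ => sum_eq_zero fun r hr => by
    rw [h i r (Nat.lt_succ_iff.1 (mem_range.1 hr)), mul_zero]

/-- Proportional values of all frames over one point come from one point of the fibre. -/
theorem fibre_separate (hτ : 0 < τ.im) (hF : Spans F) (z : ℂ) {b b' : Bool} {u u' : ℂ} {x x' : V}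
    (hx : x ≠ 0) (hx' : x' ≠ 0) (hu : b = true → u = 0) (hu' : b' = true → u' = 0) {d : ℂ}
    (h : ∀ i, ∀ r ≤ (F i).n, (F i).chart b' r (z, u', x') = d * (F i).chart b r (z, u, x)) :
    b' = b ∧ u' = u ∧ ∃ κ : ℂ, κ ≠ 0 ∧ x' = κ • x := by
  have hI := indep3_thd hτ z
  have hmul : ∀ p p' : AdmC τ z, linC τ b' z p.1 u' x' * linC τ b' z p'.1 u' x'
      = d * (linC τ b z p.1 u x * linC τ b z p'.1 u x) := fun p p' => by
    obtain ⟨c, hc⟩ := hF.chart z p p'
    rw [hc, hc, mul_sum]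
    refine sum_congr rfl fun i _ => ?_
    rw [mul_sum]
    exact sum_congr rfl fun r hr => by rw [h i r (Nat.lt_succ_iff.1 (mem_range.1 hr))]; ring
  obtain ⟨κ, hκ⟩ := prop_of_mul hmul (linC_ne_zero hτ b z u hx)
  obtain ⟨p₁, hp₁⟩ := linC_ne_zero hτ b' z u' hx'
  have hκ0 : κ ≠ 0 := fun h0 => hp₁ (by rw [hκ, h0, zero_mul])
  have hn : ∀ y : V, y ≠ 0 → y.1 ≠ 0 ∨ y.2 ≠ 0 := fun y hy => by
    by_contra h
    push Not at h
    exact hy (Prod.ext h.1 h.2)
  cases b <;> cases b'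
  · obtain ⟨h1, h2, h3⟩ := lin_separate hI (hn x' hx')
      fun p0 p1 p2 hp => hκ ⟨(p0, p1, p2), hp⟩
    exact ⟨rfl, h1, κ, hκ0, Prod.ext h2 h3⟩
  · obtain rfl := hu' rfl
    refine (lin_mixed hI (hn x hx) (t := u) (κ := κ⁻¹) (b := x'.2) (ψ := x'.1) fun p0 p1 p2 hp => ?_).elim
    rw [eq_inv_mul_iff_mul_eq₀ hκ0]
    exact (hκ ⟨(p0, p1, p2), hp⟩).symm
  · obtain rfl := hu rfl
    exact (lin_mixed hI (hn x' hx') (κ := κ) fun p0 p1 p2 hp => hκ ⟨(p0, p1, p2), hp⟩).elim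
  · obtain ⟨h1, h2, h3⟩ := lin_separate hI.swap (hn x' hx')
      fun p0 p1 p2 hp => hκ ⟨(p2, p1, p0), hp.swap⟩
    exact ⟨rfl, h1, κ, hκ0, Prod.ext h2 h3⟩

/-- Proportional differentials of all frames: the tangent is along the line. -/
theorem fibre_tangent (hτ : 0 < τ.im) (hF : Spans F) (b : Bool) (z u : ℂ) {x : V} (hx : x ≠ 0)
    {du : ℂ} {ν : V} {d : ℂ}
    (h : ∀ i, ∀ r ≤ (F i).n,
      fderiv ℂ ((F i).chart b r) (z, u, x) (0, du, ν) = d * (F i).chart b r (z, u, x)) :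
    du = 0 ∧ ν = (d / 2) • x := by
  have hI := indep3_thd hτ z
  let D : AdmC τ z → ℂ := fun p =>
    if b then linD (thd τ 2 z) (thd τ 1 z) p.1.2.2 p.1.2.1 p.1.1 u x.1 x.2 du ν.1 ν.2
      else linD (thd τ 0 z) (thd τ 1 z) p.1.1 p.1.2.1 p.1.2.2 u x.1 x.2 du ν.1 ν.2
  have hline : ∀ (th0 th1 p0 p1 p2 : Fin 6 → ℂ), HasDerivAt
      (fun e : ℂ => lin th0 th1 p0 p1 p2 (u + e * du) (x.1 + e • ν.1) (x.2 + e * ν.2))
      (linD th0 th1 p0 p1 p2 u x.1 x.2 du ν.1 ν.2) 0 := by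
    intro th0 th1 p0 p1 p2
    simp only [lin, linD, dotProduct, Fin.sum_univ_six, Pi.add_apply, Pi.smul_apply, smul_eq_mul]
    refine (DifferentiableAt.hasDerivAt (by fun_prop)).congr_deriv ?_
    simp (discharger := fun_prop) only [deriv_fun_add, deriv_fun_mul, deriv_fun_pow,
      deriv_id'', deriv_const]
    simp
    ring
  have hD : ∀ p, HasDerivAt (fun e : ℂ => linC τ b z p.1 (u + e * du) (x + e • ν)) (D p) 0 := fun p => by
    cases b <;> exact hline _ _ _ _ _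
  have hmul : ∀ p p', D p * linC τ b z p'.1 u x + linC τ b z p.1 u x * D p'
      = d * (linC τ b z p.1 u x * linC τ b z p'.1 u x) := by
    intro p p'
    obtain ⟨c, hc⟩ := hF.chart z p p'
    have hγ : HasDerivAt (fun e : ℂ => ((z, u + e * du, x + e • ν) : ℂ × ℂ × V)) (0, du, ν) 0 :=
      (hasDerivAt_const _ _).prodMk
        ((show HasDerivAt (fun e : ℂ => u + e * du) du 0 by
            simpa using ((hasDerivAt_id (0 : ℂ)).mul_const du).const_add u).prodMk
          (show HasDerivAt (fun e : ℂ => x + e • ν) ν 0 by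
            simpa using ((hasDerivAt_id (0 : ℂ)).smul_const ν).const_add x))
    have h1 := (hD p).fun_mul (hD p')
    simp only [zero_mul, zero_smul, add_zero] at h1
    have h2 : HasDerivAt (fun e : ℂ => ∑ i, ∑ r ∈ range ((F i).n + 1),
        c i r * (F i).chart b r (z, u + e * du, x + e • ν))
        (∑ i, ∑ r ∈ range ((F i).n + 1), c i r * fderiv ℂ ((F i).chart b r) (z, u, x) (0, du, ν))
        0 := by
      refine HasDerivAt.fun_sum fun i _ => HasDerivAt.fun_sum fun r _ => HasDerivAt.const_mul _ ?_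
      exact HasFDerivAt.comp_hasDerivAt_of_eq (l := (F i).chart b r) 0
        ((F i).differentiable_chart b r (z, u, x)).hasFDerivAt hγ (by simp)
    have h3 : (fun e : ℂ => linC τ b z p.1 (u + e * du) (x + e • ν)
        * linC τ b z p'.1 (u + e * du) (x + e • ν)) =
        fun e => ∑ i, ∑ r ∈ range ((F i).n + 1),
          c i r * (F i).chart b r (z, u + e * du, x + e • ν) := funext fun e => hc b _ _
    rw [h3] at h1
    rw [h1.unique h2, hc, mul_sum]
    refine sum_congr rfl fun i _ => ?_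
    rw [mul_sum]
    exact sum_congr rfl fun r hr => by rw [h i r (Nat.lt_succ_iff.1 (mem_range.1 hr))]; ring
  have hκ := tangent_of_mul hmul (linC_ne_zero hτ b z u hx)
  have hn : x.1 ≠ 0 ∨ x.2 ≠ 0 := by
    by_contra h
    push Not at h
    exact hx (Prod.ext h.1 h.2)
  cases b
  · obtain ⟨h1, h2, h3⟩ := lin_tangent hI hn fun p0 p1 p2 hp => hκ ⟨(p0, p1, p2), hp⟩
    exact ⟨h1, Prod.ext h2 h3⟩
  · obtain ⟨h1, h2, h3⟩ := lin_tangent hI.swap hn fun p0 p1 p2 hp => hκ ⟨(p2, p1, p0), hp.swap⟩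
    exact ⟨h1, Prod.ext h2 h3⟩

theorem im_mul_pos' (hτ : 0 < τ.im) {q : ℕ} (hq : 0 < q) : 0 < ((q : ℂ) * τ).im := by
  have : (0 : ℝ) < q := by exact_mod_cast hq
  simpa using mul_pos this hτ

/-- Spanning frames give an embedding by sections of `O(2)`. -/
theorem exists_embeds_of_spans (hτ : 0 < τ.im) (hF : Spans F) {q : ℕ} (hq : 0 < q) :
    ∃ (k N : ℕ) (S : Fin N → UpSection τ q k), 0 < k ∧ Embeds S := by
  classical
  set c := Frame.twC τ q with hc'
  have hτq := im_mul_pos' hτ hq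
  have hc : c ≠ 0 := Complex.exp_ne_zero _
  have := Theta.finite_sections (τ := (q : ℂ) * τ) (n := 4) (c := c) (by norm_num) hc
  let B := Module.finBasis ℂ (Theta.sections ((q : ℂ) * τ) 4 c)
  let J := Σ i : ι, Fin ((F i).n + 1) × Fin (Module.finrank ℂ (Theta.sections ((q : ℂ) * τ) 4 c))
  let e := (Fintype.equivFin J).symm
  let G : J → UpSection τ q 2 := fun j =>
    (F j.1).toUp q (Nat.lt_succ_iff.1 j.2.1.isLt) (B j.2.2)
  -- all twists are linear combinations of those by the basis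
  have hrep : ∀ ϑ ∈ Theta.sections ((q : ℂ) * τ) 4 c, ∃ a : Fin _ → ℂ,
      ϑ = fun x => ∑ j, a j * (B j : ℂ → ℂ) x := by
    intro f hf
    refine ⟨B.repr ⟨f, hf⟩, funext fun x => ?_⟩
    have h := congrArg ((LinearMap.proj (R := ℂ) (φ := fun _ : ℂ => ℂ) x).comp
      (Theta.sections ((q : ℂ) * τ) 4 c).subtype) (B.sum_repr ⟨f, hf⟩)
    rw [map_sum] at h
    exact h.symm.trans (Finset.sum_congr rfl fun i _ => rfl)
  let fr : ι → ℕ → ℂ × (Bool × ℂ × V) → ℂ := fun i l w => (F i).chart w.2.1 l (w.1, w.2.2)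
  have hev : ∀ (j : J) (P : Pt), P.eval (G j) =
      tw (Frame.twL q) (B j.2.2 : ℂ → ℂ) (fr j.1) j.2.1 (P.z, P.inf, P.u, P.x) := by
    rintro j ⟨_ | _, z, u, x⟩ <;> rfl
  have htw : ∀ {P Q : Pt} {d : ℂ}, (∀ k, Q.eval (G (e k)) = d * P.eval (G (e k))) →
      ∀ (i : ι) (ϑ : ℂ → ℂ), ϑ ∈ Theta.sections ((q : ℂ) * τ) 4 c → ∀ r ≤ (F i).n,
        tw (Frame.twL q) ϑ (fr i) r (Q.z, Q.inf, Q.u, Q.x) =
          d * tw (Frame.twL q) ϑ (fr i) r (P.z, P.inf, P.u, P.x) := by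
    intro P Q d h i ϑ hϑ r hr
    obtain ⟨a, rfl⟩ := hrep ϑ hϑ
    simp only [tw_sum (fun j => (B j).2.1) a, mul_sum]
    refine sum_congr rfl fun j _ => ?_
    have h' := h (e.symm ⟨i, ⟨r, Nat.lt_succ_iff.2 hr⟩, j⟩)
    simp only [e.apply_symm_apply, hev] at h'
    rw [h']; ring
  refine ⟨2, Fintype.card J, fun k => G (e k), by norm_num, fun P hP => ?_, fun P Q hP hQ d h => ?_,
    fun b z u x hx ξ ν d h => ?_⟩
  · -- no common zero
    by_contra h
    push Not at h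
    obtain ⟨i, r, hr, hne⟩ := chart_ne_zero hτ hF P.inf P.z P.u hP
    obtain ⟨ϑ, hϑ, l, hl, hne'⟩ := exists_tw_ne_zero (Q := fr i) (lam := Frame.twL q)
      (w := (P.z, P.inf, P.u, P.x)) hτq hc (by norm_num : 2 ≤ 4) hne
    have h0 := htw (P := P) (Q := P) (d := 0) (fun k => by rw [h k, zero_mul]) i ϑ hϑ l
      (hl.trans hr)
    rw [zero_mul] at h0
    exact hne' h0
  · -- separation
    by_cases hz : Q.z - P.z ∈ Theta.lattice ((q : ℂ) * τ)
    · obtain ⟨a, n, han⟩ := Theta.mem_lattice.1 hz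
      obtain ⟨P', hPP', hPz, hP', hPu⟩ := exists_moved hτ hq P hP a n
      obtain ⟨Q', hQQ', hQz, hQ', hQu⟩ := exists_moved hτ hq Q hQ 0 0
      have hzz : Q'.z = P'.z := by
        simp only [Int.cast_zero, zero_mul, add_zero] at hQz
        rw [hQz, hPz]
        linear_combination han
      have h' : ∀ k, Q'.eval (G (e k)) = d * P'.eval (G (e k)) := fun k => by
        rw [hQQ'.eval_eq, hPP'.eval_eq, h k]
      have hfr : ∀ i, ∀ r ≤ (F i).n, (F i).chart Q'.inf r (P'.z, Q'.u, Q'.x) =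
          d * (F i).chart P'.inf r (P'.z, P'.u, P'.x) := fun i r hr => by
        have h'' := frame_eq_of_tw_eq (Q := fr i) (lam := Frame.twL q) hτq hc
          (by norm_num : 2 ≤ 4) (htw h' i) hzz r hr
        simpa [fr, hzz] using h''
      obtain ⟨hb, hu, κ, hκ, hx⟩ := fibre_separate hτ hF P'.z hP' hQ' hPu hQu hfr
      refine hPP'.samePoint.trans _ _ _ ((Relation.EqvGen.rel _ _ ?_).trans _ _ _
        hQQ'.samePoint.symm)
      obtain ⟨bP, zP, uP, xP⟩ := P'
      obtain ⟨bQ, zQ, uQ, xQ⟩ := Q'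
      simp only at hzz hb hu hx
      subst hzz hb hu hx
      exact Step.scal _ _ _ _ κ hκ
    · obtain ⟨i, r, hr, hne⟩ := chart_ne_zero hτ hF Q.inf Q.z Q.u hQ
      exact absurd (eq_zero_of_tw_eq (Q := fr i) (lam := Frame.twL q) hτq hc
        (by norm_num : 3 ≤ 4) (htw h i) hz r hr).1 hne
  · -- immersion
    have htw' : ∀ (i : ι) (ϑ : ℂ → ℂ), ϑ ∈ Theta.sections ((q : ℂ) * τ) 4 c → ∀ r ≤ (F i).n,
        fderiv ℂ (tw (Frame.twL q) ϑ ((F i).chart b) r) (z, u, x) (ξ.1, ξ.2, ν) =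
          d * tw (Frame.twL q) ϑ ((F i).chart b) r (z, u, x) := by
      intro i ϑ hϑ r hr
      obtain ⟨a, rfl⟩ := hrep ϑ hϑ
      rw [show tw (Frame.twL q) (fun x => ∑ j, a j * (B j : ℂ → ℂ) x) ((F i).chart b) r
          = fun w => ∑ j, a j * tw (Frame.twL q) (B j : ℂ → ℂ) ((F i).chart b) r w from
        funext fun w => tw_sum (fun j => (B j).2.1) a _ r w]
      have hd : ∀ j, DifferentiableAt ℂ (tw (Frame.twL q) (B j : ℂ → ℂ) ((F i).chart b) r) (z, u, x) :=
        fun j => by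
          cases b
          · exact Frame.differentiable_tw (F i).hol (B j).2.1 _ r _
          · exact Frame.differentiable_tw (F i).holInf (B j).2.1 _ r _
      rw [fderiv_fun_sum fun j _ => (hd j).const_mul (a j)]
      simp only [_root_.sum_apply, mul_sum]
      refine sum_congr rfl fun j _ => ?_
      rw [fderiv_const_mul (hd j), _root_.smul_apply, smul_eq_mul]
      have h' := h (e.symm ⟨i, ⟨r, Nat.lt_succ_iff.2 hr⟩, j⟩)
      simp only [e.apply_symm_apply] at h'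
      have hfun : (fun p : ℂ × ℂ × V => (⟨b, p.1, p.2.1, p.2.2⟩ : Pt).eval
          (G ⟨i, ⟨r, Nat.lt_succ_iff.2 hr⟩, j⟩)) =
          tw (Frame.twL q) (B j : ℂ → ℂ) ((F i).chart b) r := by
        cases b <;> rfl
      rw [hfun] at h'
      have h2 : fderiv ℂ (tw (Frame.twL q) (B j : ℂ → ℂ) ((F i).chart b) r) (z, u, x) (ξ.1, ξ.2, ν)
          = d * tw (Frame.twL q) (B j : ℂ → ℂ) ((F i).chart b) r (z, u, x) := by
        refine h'.trans ?_
        exact congrArg _ (congrFun hfun (z, u, x))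
      rw [h2]; ring
    obtain ⟨i₀, r₀, hr₀, hne⟩ := chart_ne_zero hτ hF b z u hx
    have hξ : ξ.1 = 0 := (tangent_of_tw_eq hτq hc (by norm_num : 3 ≤ 4)
      (fun r => (F i₀).differentiable_chart b r _) (htw' i₀)).1 ⟨r₀, hr₀, hne⟩
    obtain ⟨hdu, hν⟩ := fibre_tangent hτ hF b z u hx (du := ξ.2) (ν := ν) (d := d) fun i r hr => by
      have h' := (tangent_of_tw_eq hτq hc (by norm_num : 3 ≤ 4)
        (fun r => (F i).differentiable_chart b r _) (htw' i)).2 hξ r hr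
      rwa [hξ] at h'
    exact ⟨Prod.ext hξ hdu, _, hν⟩

end Vale.Agent.P296.Ample
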