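import Mathlib

/-!
# P296: the linear functions embed the fibre over a point of the elliptic curve

Over a point `z` the dual bundle has the charts `(t, φ, a)` and `(s, ψ, b)` with `s = 1/t`,
`ψ = t² φ + a (t θ₀ + θ₁ + θ₂/t)`, `b = -a/t²`. The functions linear on the fibres are `lin`,
indexed by `(p₀, p₁, p₂)` with `θ₂·p₂ + θ₁·p₁ + θ₀·p₀ = 0`. The chart at infinity is the same
with both triples reversed. If `θ₀, θ₁, θ₂` are independent they separate lines and tangents.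
-/

noncomputable section

namespace Vale.Agent.P296.Ample

open Matrix

/-- The three jets are independent. -/
def Indep3 (th0 th1 th2 : Fin 6 → ℂ) : Prop :=
  ∀ x y u : ℂ, x • th0 + y • th1 + u • th2 = 0 → x = 0 ∧ y = 0 ∧ u = 0

/-- The condition on the coefficients of a linear function. -/
def Adm (th0 th1 th2 p0 p1 p2 : Fin 6 → ℂ) : Prop :=
  th2 ⬝ᵥ p2 + th1 ⬝ᵥ p1 + th0 ⬝ᵥ p0 = 0

/-- A linear function in the finite chart. -/
def lin (th0 th1 p0 p1 p2 : Fin 6 → ℂ) (t : ℂ) (φ : Fin 6 → ℂ) (a : ℂ) : ℂ :=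
  (t ^ 2 • p2 + t • p1 + p0) ⬝ᵥ φ + a * ((t • th0 + th1) ⬝ᵥ p2 + th0 ⬝ᵥ p1)

/-- The differential of a linear function. -/
def linD (th0 th1 p0 p1 p2 : Fin 6 → ℂ) (t : ℂ) (φ : Fin 6 → ℂ) (a dt : ℂ) (dφ : Fin 6 → ℂ)
    (da : ℂ) : ℂ :=
  (t ^ 2 • p2 + t • p1 + p0) ⬝ᵥ dφ + dt * ((2 * t) • p2 + p1) ⬝ᵥ φ
    + da * ((t • th0 + th1) ⬝ᵥ p2 + th0 ⬝ᵥ p1) + a * dt * (th0 ⬝ᵥ p2)

theorem Indep3.swap {th0 th1 th2 : Fin 6 → ℂ} (h : Indep3 th0 th1 th2) : Indep3 th2 th1 th0 :=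
  fun x y u e => by
    obtain ⟨h1, h2, h3⟩ := h u y x (by rw [← e]; abel)
    exact ⟨h3, h2, h1⟩

theorem Adm.swap {th0 th1 th2 p0 p1 p2 : Fin 6 → ℂ} (h : Adm th0 th1 th2 p0 p1 p2) :
    Adm th2 th1 th0 p2 p1 p0 := by
  unfold Adm at *
  linear_combination h

variable {th0 th1 th2 : Fin 6 → ℂ} (hI : Indep3 th0 th1 th2)
include hI

theorem exists_dot_one : ∃ u, th0 ⬝ᵥ u = 1 := by
  have hne : th0 ≠ 0 := fun h0 =>
    one_ne_zero (hI 1 0 0 (by simp [h0])).1
  obtain ⟨i, hi⟩ := Function.ne_iff.1 hne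
  exact ⟨Pi.single i (th0 i)⁻¹, by rw [dotProduct_single, mul_inv_cancel₀ hi]⟩

/-- A functional vanishing on the admissible coefficients is a multiple of the condition. -/
theorem exists_mult {a0 a1 a2 : Fin 6 → ℂ}
    (h : ∀ p0 p1 p2, Adm th0 th1 th2 p0 p1 p2 → a0 ⬝ᵥ p0 + a1 ⬝ᵥ p1 + a2 ⬝ᵥ p2 = 0) :
    ∃ μ : ℂ, a0 = μ • th0 ∧ a1 = μ • th1 ∧ a2 = μ • th2 := by
  obtain ⟨u, hu⟩ := exists_dot_one hI
  have e : ∀ p0 p1 p2, a0 ⬝ᵥ p0 + a1 ⬝ᵥ p1 + a2 ⬝ᵥ p2
      = (a0 ⬝ᵥ u) * (th2 ⬝ᵥ p2 + th1 ⬝ᵥ p1 + th0 ⬝ᵥ p0) := by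
    intro p0 p1 p2
    set w := th2 ⬝ᵥ p2 + th1 ⬝ᵥ p1 + th0 ⬝ᵥ p0 with hw
    have := h (p0 - w • u) p1 p2 (by
      simp only [Adm, dotProduct_sub, dotProduct_smul, hu, smul_eq_mul, mul_one]
      rw [hw]; ring)
    simp only [dotProduct_sub, dotProduct_smul, smul_eq_mul] at this
    linear_combination this
  refine ⟨a0 ⬝ᵥ u, funext fun i => ?_, funext fun i => ?_, funext fun i => ?_⟩
  · simpa using e (Pi.single i 1) 0 0
  · simpa using e 0 (Pi.single i 1) 0
  · simpa using e 0 0 (Pi.single i 1)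

/-- The linear functions have no common zero. -/
theorem lin_ne_zero {t a : ℂ} {φ : Fin 6 → ℂ} (h : φ ≠ 0 ∨ a ≠ 0) :
    ∃ p0 p1 p2, Adm th0 th1 th2 p0 p1 p2 ∧ lin th0 th1 p0 p1 p2 t φ a ≠ 0 := by
  by_contra hc
  push Not at hc
  obtain ⟨μ, e0, e1, -⟩ := exists_mult hI (a0 := φ) (a1 := t • φ + a • th0)
    (a2 := t ^ 2 • φ + a • (t • th0 + th1)) fun p0 p1 p2 hp => by
      have := hc p0 p1 p2 hp
      simp only [lin, add_dotProduct, smul_dotProduct, smul_eq_mul] at this ⊢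
      rw [dotProduct_comm φ, dotProduct_comm φ, dotProduct_comm φ]
      linear_combination this
  obtain ⟨h1, h2, -⟩ := hI (t * μ + a) (-μ) 0 (by
    rw [e0] at e1
    calc _ = (t • μ • th0 + a • th0) - μ • th1 := by module
      _ = 0 := sub_eq_zero.2 e1)
  rw [neg_eq_zero] at h2
  rw [h2, zero_smul] at e0
  rw [h2, mul_zero, zero_add] at h1
  exact h.elim (fun h => h e0) fun h => h h1

/-- Proportional values of all linear functions come from one line. -/
theorem lin_separate {t t' a a' κ : ℂ} {φ φ' : Fin 6 → ℂ} (h' : φ' ≠ 0 ∨ a' ≠ 0)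
    (h : ∀ p0 p1 p2, Adm th0 th1 th2 p0 p1 p2 →
      lin th0 th1 p0 p1 p2 t' φ' a' = κ * lin th0 th1 p0 p1 p2 t φ a) :
    t' = t ∧ φ' = κ • φ ∧ a' = κ * a := by
  obtain ⟨μ, e0, e1, e2⟩ := exists_mult hI (a0 := φ' - κ • φ)
    (a1 := t' • φ' + a' • th0 - κ • (t • φ + a • th0))
    (a2 := t' ^ 2 • φ' + a' • (t' • th0 + th1) - κ • (t ^ 2 • φ + a • (t • th0 + th1)))
    fun p0 p1 p2 hp => by
      have := h p0 p1 p2 hp
      simp only [lin, add_dotProduct, smul_dotProduct, sub_dotProduct, smul_eq_mul] at this ⊢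
      simp only [dotProduct_comm φ, dotProduct_comm φ']
      linear_combination this
  have hφ : φ' = κ • φ + μ • th0 := by rw [← e0]; abel
  subst hφ
  by_cases htt : t' = t
  · subst htt
    obtain ⟨h1, h2, -⟩ := hI (t' * μ + (a' - κ * a)) (-μ) 0 (by
      calc _ = (t' • (κ • φ + μ • th0) + a' • th0 - κ • (t' • φ + a • th0)) - μ • th1 := by module
        _ = 0 := sub_eq_zero.2 e1)
    rw [neg_eq_zero] at h2
    rw [h2, mul_zero, zero_add, sub_eq_zero] at h1
    simp [h1, h2]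
  · exfalso
    obtain ⟨h1, h2, h3⟩ := hI
      (t' ^ 2 * μ + a' * t' - κ * a * t - (t' + t) * (t' * μ + (a' - κ * a)))
      ((a' - κ * a) + (t' + t) * μ) (-μ) (by
      calc _ = ((t' ^ 2 • (κ • φ + μ • th0) + a' • (t' • th0 + th1)
              - κ • (t ^ 2 • φ + a • (t • th0 + th1))) - μ • th2)
            - (t' + t) • ((t' • (κ • φ + μ • th0) + a' • th0 - κ • (t • φ + a • th0)) - μ • th1) :=
            by module
        _ = 0 := by rw [sub_eq_zero.2 e1, sub_eq_zero.2 e2]; simp)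
    rw [neg_eq_zero] at h3
    subst h3
    rw [mul_zero, add_zero, sub_eq_zero] at h2
    subst h2
    have hd : t' - t ≠ 0 := sub_ne_zero.2 htt
    have hka : κ * a = 0 := (mul_eq_zero.1 (by linear_combination h1 :
      κ * a * (t' - t) = 0)).resolve_right hd
    have hkφ : κ • φ = 0 := by
      have e : (t' - t) • κ • φ = 0 := by
        calc _ = (t' • (κ • φ + (0 : ℂ) • th0) + (κ * a) • th0 - κ • (t • φ + a • th0))
              - (0 : ℂ) • th1 := by module
          _ = 0 := sub_eq_zero.2 e1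
      exact (smul_eq_zero.1 e).resolve_left hd
    rcases h' with h' | h'
    · exact h' (by rw [hkφ, zero_smul, add_zero])
    · exact h' hka

/-- Proportional differentials: the tangent is along the line. -/
theorem lin_tangent {t a dt da κ : ℂ} {φ dφ : Fin 6 → ℂ} (h0 : φ ≠ 0 ∨ a ≠ 0)
    (h : ∀ p0 p1 p2, Adm th0 th1 th2 p0 p1 p2 →
      linD th0 th1 p0 p1 p2 t φ a dt dφ da = κ * lin th0 th1 p0 p1 p2 t φ a) :
    dt = 0 ∧ dφ = κ • φ ∧ da = κ * a := by
  obtain ⟨μ, e0, e1, e2⟩ := exists_mult hI (a0 := dφ - κ • φ)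
    (a1 := t • dφ + dt • φ + da • th0 - κ • (t • φ + a • th0))
    (a2 := t ^ 2 • dφ + (2 * t * dt) • φ + da • (t • th0 + th1) + (a * dt) • th0
      - κ • (t ^ 2 • φ + a • (t • th0 + th1)))
    fun p0 p1 p2 hp => by
      have := h p0 p1 p2 hp
      simp only [lin, linD, add_dotProduct, smul_dotProduct, sub_dotProduct, smul_eq_mul] at this ⊢
      simp only [dotProduct_comm φ, dotProduct_comm dφ]
      linear_combination this
  have hφ : dφ = κ • φ + μ • th0 := by rw [← e0]; abel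
  subst hφ
  obtain ⟨h1, h2, h3⟩ := hI
    (t ^ 2 * μ + t * da + a * dt - κ * a * t - 2 * t * (t * μ + (da - κ * a)))
    ((da - κ * a) + 2 * t * μ) (-μ) (by
    calc _ = ((t ^ 2 • (κ • φ + μ • th0) + (2 * t * dt) • φ + da • (t • th0 + th1) + (a * dt) • th0
            - κ • (t ^ 2 • φ + a • (t • th0 + th1))) - μ • th2)
          - (2 * t) • ((t • (κ • φ + μ • th0) + dt • φ + da • th0 - κ • (t • φ + a • th0))
            - μ • th1) := by module
      _ = 0 := by rw [sub_eq_zero.2 e1, sub_eq_zero.2 e2]; simp)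
  rw [neg_eq_zero] at h3
  subst h3
  rw [mul_zero, add_zero, sub_eq_zero] at h2
  subst h2
  have e : dt • φ = 0 := by
    calc _ = (t • (κ • φ + (0 : ℂ) • th0) + dt • φ + (κ * a) • th0 - κ • (t • φ + a • th0))
          - (0 : ℂ) • th1 := by module
      _ = 0 := sub_eq_zero.2 e1
  have hdt : dt = 0 := by
    by_contra hne
    have hφ0 := (smul_eq_zero.1 e).resolve_left hne
    exact h0.elim (fun h => h hφ0) fun h => h
      ((mul_eq_zero.1 (by linear_combination h1 : a * dt = 0)).resolve_right hne)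
  exact ⟨hdt, by rw [zero_smul, add_zero], rfl⟩

/-- A point of the finite chart and one at infinity are separated. -/
theorem lin_mixed {t a b κ : ℂ} {φ ψ : Fin 6 → ℂ} (h0 : φ ≠ 0 ∨ a ≠ 0)
    (h : ∀ p0 p1 p2, Adm th0 th1 th2 p0 p1 p2 →
      lin th0 th1 p0 p1 p2 t φ a = κ * lin th2 th1 p2 p1 p0 0 ψ b) : False := by
  obtain ⟨μ, e0, e1, -⟩ := exists_mult hI (a0 := φ - (κ * b) • th1)
    (a1 := t • φ + a • th0 - (κ * b) • th2)
    (a2 := t ^ 2 • φ + a • (t • th0 + th1) - κ • ψ)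
    fun p0 p1 p2 hp => by
      have := h p0 p1 p2 hp
      simp only [lin, add_dotProduct, smul_dotProduct, sub_dotProduct, smul_eq_mul] at this ⊢
      simp only [zero_mul, zero_pow two_ne_zero, add_zero, zero_add] at this
      simp only [dotProduct_comm φ, dotProduct_comm ψ]
      linear_combination this
  have hφ : φ = (κ * b) • th1 + μ • th0 := by rw [← e0]; abel
  subst hφ
  obtain ⟨h1, h2, h3⟩ := hI (t * μ + a) (t * (κ * b) - μ) (-(κ * b)) (by
    calc _ = (t • ((κ * b) • th1 + μ • th0) + a • th0 - (κ * b) • th2) - μ • th1 := by module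
      _ = 0 := sub_eq_zero.2 e1)
  rw [neg_eq_zero] at h3
  rw [h3, mul_zero, zero_sub, neg_eq_zero] at h2
  subst h2
  rw [mul_zero, zero_add] at h1
  rcases h0 with h0 | h0
  · exact h0 (by rw [h3]; simp)
  · exact h0 h1

omit hI

/-- Functions with proportional products are proportional. -/
theorem prop_of_mul {ι : Type*} {L L' : ι → ℂ} {d : ℂ}
    (h : ∀ i j, L' i * L' j = d * (L i * L j)) (hne : ∃ i, L i ≠ 0) :
    ∃ κ : ℂ, ∀ i, L' i = κ * L i := by
  obtain ⟨i₀, hi₀⟩ := hne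
  refine ⟨L' i₀ / L i₀, fun i => ?_⟩
  rcases eq_or_ne (L' i₀) 0 with h0 | h0
  · have hd : d = 0 := by
      have := h i₀ i₀
      rw [h0, zero_mul, eq_comm, mul_eq_zero] at this
      exact this.resolve_right (mul_ne_zero hi₀ hi₀)
    have := h i i
    rw [hd, zero_mul, mul_self_eq_zero] at this
    rw [this, h0, zero_div, zero_mul]
  · have h1 := h i₀ i₀
    have h2 := h i i₀
    field_simp
    refine mul_left_cancel₀ (mul_ne_zero h0 hi₀) ?_
    linear_combination (L i₀ ^ 2) * h2 - (L i * L i₀) * h1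

/-- Functions with proportional differentials of products have proportional differentials. -/
theorem tangent_of_mul {ι : Type*} {L D : ι → ℂ} {d : ℂ}
    (h : ∀ i j, D i * L j + L i * D j = d * (L i * L j)) (hne : ∃ i, L i ≠ 0) (i : ι) :
    D i = d / 2 * L i := by
  obtain ⟨i₀, hi₀⟩ := hne
  have h1 := h i₀ i₀
  have h2 := h i i₀
  refine mul_left_cancel₀ (mul_ne_zero hi₀ hi₀) ?_
  linear_combination (L i₀) * h2 - (L i / 2) * h1

end Vale.Agent.P296.Ample
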