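import Vale.Agent.P296.Theta.Jets

/-!
# P296: a unipotent frame and theta functions separate along the elliptic curve

`Q 0, Q 1, …` are functions on `ℂ × M` (first coordinate `z`) which transform binomially under the
translation by `τ`. For a section `ϑ` of degree `m` the combination
`∑ C(r,l) lam ^ (r - l) * ϑ^(r-l) * Q l` transforms by the multiplier of `ϑ`. These combinations
separate as far as the `Q l` at one `z` do; only first order jets of `ϑ` are needed.
-/

noncomputable section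

namespace Vale.Agent.P296.Ample

open Finset Vale.Agent.P296.Theta
open scoped Real

/-- The umbral identity behind the invariance of the twisted combinations. -/
theorem umbral (f g : ℕ → ℂ) {lam κ' κ : ℂ} (h : lam * κ' = -κ) (r : ℕ) :
    ∑ l ∈ range (r + 1), (r.choose l : ℂ) * lam ^ (r - l) *
        (∑ j ∈ range (r - l + 1), ((r - l).choose j : ℂ) * κ' ^ (r - l - j) * f j) *
        (∑ i ∈ range (l + 1), (l.choose i : ℂ) * κ ^ (l - i) * g i) =
      ∑ l ∈ range (r + 1), (r.choose l : ℂ) * lam ^ (r - l) * f (r - l) * g l := by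
  let φ : Polynomial ℂ → ℂ := fun a => a.sum fun j b => b * f j
  let ψ : Polynomial ℂ → ℂ := fun a => a.sum fun i b => b * g i
  let Φ : Polynomial (Polynomial ℂ) → ℂ := fun P => P.sum fun i a => φ a * g i
  have φadd : ∀ a b, φ (a + b) = φ a + φ b := fun a b =>
    Polynomial.sum_add_index _ _ _ (fun _ => zero_mul _) fun _ _ _ => add_mul _ _ _
  have φ0 : φ 0 = 0 := Polynomial.sum_zero_index _
  have Φadd : ∀ a b, Φ (a + b) = Φ a + Φ b := fun a b =>
    Polynomial.sum_add_index _ _ _ (fun i => by rw [φ0, zero_mul])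
      fun i x y => by rw [φadd, add_mul]
  have ψadd : ∀ a b, ψ (a + b) = ψ a + ψ b := fun a b =>
    Polynomial.sum_add_index _ _ _ (fun _ => zero_mul _) fun _ _ _ => add_mul _ _ _
  have φsum : ∀ (s : Finset ℕ) (F : ℕ → Polynomial ℂ), φ (∑ i ∈ s, F i) = ∑ i ∈ s, φ (F i) :=
    fun s F => map_sum (AddMonoidHom.mk' φ φadd) F s
  have ψsum : ∀ (s : Finset ℕ) (F : ℕ → Polynomial ℂ), ψ (∑ i ∈ s, F i) = ∑ i ∈ s, ψ (F i) :=
    fun s F => map_sum (AddMonoidHom.mk' ψ ψadd) F s
  have Φsum : ∀ (s : Finset ℕ) (F : ℕ → Polynomial (Polynomial ℂ)),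
      Φ (∑ i ∈ s, F i) = ∑ i ∈ s, Φ (F i) :=
    fun s F => map_sum (AddMonoidHom.mk' Φ Φadd) F s
  have φsmul : ∀ (x : ℂ) a, φ (Polynomial.C x * a) = x * φ a := fun x a => by
    induction a using Polynomial.induction_on' with
    | add p q hp hq => rw [mul_add, φadd, φadd, hp, hq, mul_add]
    | monomial i b =>
      simp only [φ, Polynomial.C_mul_monomial]
      rw [Polynomial.sum_monomial_index _ (fun j b => b * f j) (zero_mul _),
        Polynomial.sum_monomial_index _ (fun j b => b * f j) (zero_mul _), mul_assoc]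
  have split : ∀ (a b : Polynomial ℂ),
      Φ (Polynomial.C a * b.map Polynomial.C) = φ a * ψ b := by
    intro a b
    induction b using Polynomial.induction_on' with
    | add p q hp hq => rw [Polynomial.map_add, mul_add, Φadd, ψadd, hp, hq, mul_add]
    | monomial i x =>
      simp only [Φ, ψ, Polynomial.map_monomial, Polynomial.C_mul_monomial]
      rw [Polynomial.sum_monomial_index _ (fun i a => φ a * g i) (by simp only [φ0, zero_mul]),
        Polynomial.sum_monomial_index _ (fun i b => b * g i) (zero_mul _), mul_comm a, φsmul]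
      ring
  have φpow : ∀ (x : ℂ) (k : ℕ), φ ((Polynomial.X + Polynomial.C x) ^ k)
      = ∑ j ∈ range (k + 1), (k.choose j : ℂ) * x ^ (k - j) * f j := by
    intro x k
    rw [add_pow, φsum]
    refine sum_congr rfl fun j _ => ?_
    rw [show Polynomial.X ^ j * Polynomial.C x ^ (k - j) * (k.choose j : Polynomial ℂ)
      = Polynomial.monomial j ((k.choose j : ℂ) * x ^ (k - j)) by
        rw [← Polynomial.C_mul_X_pow_eq_monomial, map_mul, map_pow, map_natCast]; ring]
    simp only [φ]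
    rw [Polynomial.sum_monomial_index _ (fun j b => b * f j) (zero_mul _)]
  have ψpow : ∀ (x : ℂ) (k : ℕ), ψ ((Polynomial.X + Polynomial.C x) ^ k)
      = ∑ j ∈ range (k + 1), (k.choose j : ℂ) * x ^ (k - j) * g j := by
    intro x k
    rw [add_pow, ψsum]
    refine sum_congr rfl fun j _ => ?_
    rw [show Polynomial.X ^ j * Polynomial.C x ^ (k - j) * (k.choose j : Polynomial ℂ)
      = Polynomial.monomial j ((k.choose j : ℂ) * x ^ (k - j)) by
        rw [← Polynomial.C_mul_X_pow_eq_monomial, map_mul, map_pow, map_natCast]; ring]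
    simp only [ψ]
    rw [Polynomial.sum_monomial_index _ (fun i b => b * g i) (zero_mul _)]
  have key : ∀ (a : Polynomial ℂ) (x : ℂ),
      Φ ((Polynomial.C a + (Polynomial.X + Polynomial.C (Polynomial.C x))) ^ r)
        = ∑ l ∈ range (r + 1), (r.choose l : ℂ) * φ (a ^ (r - l)) *
            ψ ((Polynomial.X + Polynomial.C x) ^ l) := by
    intro a x
    rw [add_comm, add_pow, Φsum]
    refine sum_congr rfl fun l _ => ?_
    rw [mul_assoc (r.choose l : ℂ), ← split, ← nsmul_eq_mul]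
    refine Eq.trans ?_ (map_nsmul (AddMonoidHom.mk' Φ Φadd) _ _)
    rw [AddMonoidHom.mk'_apply, nsmul_eq_mul, map_pow, Polynomial.map_pow, Polynomial.map_add,
      Polynomial.map_X, Polynomial.map_C]
    exact congrArg Φ (by ring)
  have e1 := key (Polynomial.C lam * (Polynomial.X + Polynomial.C κ')) κ
  have e2 := key (Polynomial.C lam * Polynomial.X) 0
  have same : (Polynomial.C (Polynomial.C lam * (Polynomial.X + Polynomial.C κ'))
      + (Polynomial.X + Polynomial.C (Polynomial.C κ)) : Polynomial (Polynomial ℂ))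
      = Polynomial.C (Polynomial.C lam * Polynomial.X)
      + (Polynomial.X + Polynomial.C (Polynomial.C 0)) := by
    have hk : κ = -(lam * κ') := by rw [h, neg_neg]
    simp only [hk, map_mul, map_add, map_neg, map_zero]
    ring
  rw [same] at e1
  have hpow : ∀ (a : Polynomial ℂ) (k : ℕ), φ ((Polynomial.C lam * a) ^ k) = lam ^ k * φ (a ^ k) :=
    fun a k => by rw [mul_pow, ← map_pow, φsmul]
  calc ∑ l ∈ range (r + 1), (r.choose l : ℂ) * lam ^ (r - l) *
        (∑ j ∈ range (r - l + 1), ((r - l).choose j : ℂ) * κ' ^ (r - l - j) * f j) *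
        (∑ i ∈ range (l + 1), (l.choose i : ℂ) * κ ^ (l - i) * g i)
      = ∑ l ∈ range (r + 1), (r.choose l : ℂ) *
          φ ((Polynomial.C lam * (Polynomial.X + Polynomial.C κ')) ^ (r - l)) *
          ψ ((Polynomial.X + Polynomial.C κ) ^ l) :=
        sum_congr rfl fun l _ => by rw [hpow, φpow, ψpow, mul_assoc (r.choose l : ℂ)]
    _ = ∑ l ∈ range (r + 1), (r.choose l : ℂ) *
          φ ((Polynomial.C lam * Polynomial.X) ^ (r - l)) *
          ψ ((Polynomial.X + Polynomial.C 0) ^ l) := e1.symm.trans e2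
    _ = _ := sum_congr rfl fun l _ => by
        rw [hpow, map_zero, add_zero, mul_assoc (r.choose l : ℂ)]
        simp only [φ, ψ, ← Polynomial.monomial_one_right_eq_X_pow]
        rw [Polynomial.sum_monomial_index _ (fun j b => b * f j) (zero_mul _),
          Polynomial.sum_monomial_index _ (fun i b => b * g i) (zero_mul _)]
        ring

variable {τ c lam κ : ℂ} {m : ℕ} {M : Type*}

/-- The derivatives of a section under the translation by `τ`. -/
theorem iteratedDeriv_add_tau {ϑ : ℂ → ℂ} (hϑ : ϑ ∈ sections τ m c) (k : ℕ) (z : ℂ) :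
    iteratedDeriv k ϑ (z + τ) = c * (coord z)⁻¹ ^ m * ∑ j ∈ range (k + 1),
      (k.choose j : ℂ) * (-(2 * π * Complex.I * m)) ^ (k - j) * iteratedDeriv j ϑ z := by
  set κ' : ℂ := -(2 * π * Complex.I * m) with hκ'
  have he : ∀ x : ℂ, c * (coord x)⁻¹ ^ m = c * Complex.exp (κ' * x) := fun x => by
    rw [coord, ← Complex.exp_neg, ← Complex.exp_nat_mul, hκ']
    ring_nf
  have h1 : iteratedDeriv k (fun x => ϑ (x + τ)) z = iteratedDeriv k ϑ (z + τ) := by
    rw [iteratedDeriv_comp_add_const]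
  have h2 : (fun x => ϑ (x + τ)) = ϑ * fun x => c * Complex.exp (κ' * x) := funext fun x => by
    rw [hϑ.2.2 x, he, Pi.mul_apply, mul_comm]
  rw [← h1, h2, iteratedDeriv_mul hϑ.1.contDiff.contDiffAt
    (ContDiff.contDiffAt (by fun_prop)), he, mul_sum]
  refine sum_congr rfl fun j _ => ?_
  rw [iteratedDeriv_const_mul_field, iteratedDeriv_cexp_const_mul]
  ring

/-- The twisted combination of the frame `Q` by `ϑ`. -/
def tw (lam : ℂ) (ϑ : ℂ → ℂ) (Q : ℕ → ℂ × M → ℂ) (r : ℕ) (w : ℂ × M) : ℂ :=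
  ∑ l ∈ range (r + 1), (r.choose l : ℂ) * lam ^ (r - l) * iteratedDeriv (r - l) ϑ w.1 * Q l w

variable {Q : ℕ → ℂ × M → ℂ} {w w' : ℂ × M}

/-- A twisted combination transforms by the multiplier of the section. -/
theorem tw_add_tau {ϑ : ℂ → ℂ} (hϑ : ϑ ∈ sections τ m c) (hlam : lam * -(2 * π * Complex.I * m) = -κ)
    (hw : w'.1 = w.1 + τ)
    {r : ℕ}
    (hQ : ∀ l ≤ r, Q l w' = ∑ i ∈ range (l + 1), (l.choose i : ℂ) * κ ^ (l - i) * Q i w) :
    tw lam ϑ Q r w' = c * (coord w.1)⁻¹ ^ m * tw lam ϑ Q r w := by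
  simp only [tw, hw, iteratedDeriv_add_tau hϑ]
  rw [sum_congr rfl fun l hl => by rw [hQ l (by rw [mem_range] at hl; omega)]]
  rw [← umbral (fun j => iteratedDeriv j ϑ w.1) (fun i => Q i w) hlam r, mul_sum]
  refine sum_congr rfl fun l _ => ?_
  ring

/-- A twisted combination has period one. -/
theorem tw_add_one {ϑ : ℂ → ℂ} (hϑ : ϑ ∈ sections τ m c) (hw : w'.1 = w.1 + 1)
    (hQ : ∀ l, Q l w' = Q l w) (r : ℕ) : tw lam ϑ Q r w' = tw lam ϑ Q r w := by
  have e : ∀ k, iteratedDeriv k ϑ w'.1 = iteratedDeriv k ϑ w.1 := fun k => by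
    have h1 := congrFun (congrArg (iteratedDeriv k) (funext hϑ.2.1 : (fun x => ϑ (x + 1)) = ϑ)) w.1
    rw [iteratedDeriv_comp_add_const] at h1
    rw [hw]
    exact h1
  simp only [tw, e, hQ]

/-- At the first index where the frame does not vanish only the section itself enters. -/
theorem tw_first {ϑ : ℂ → ℂ} {r : ℕ} (h : ∀ l < r, Q l w = 0) :
    tw lam ϑ Q r w = ϑ w.1 * Q r w := by
  rw [tw, sum_range_succ, sum_eq_zero fun l hl => by rw [h l (mem_range.1 hl), mul_zero]]
  simp

/-- A section of degree at least three with a prescribed simple zero. -/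
theorem exists_tangent' (hτ : 0 < τ.im) (hc : c ≠ 0) (hm : 3 ≤ m) (z : ℂ) :
    ∃ f ∈ sections τ m c, f z = 0 ∧ deriv f z ≠ 0 := by
  obtain ⟨k, rfl⟩ : ∃ k, m = k + 3 := ⟨m - 3, by omega⟩
  obtain ⟨a, ha⟩ := exists_avoid τ {z} (Set.countable_singleton _)
  have hd : ((-coord a) ^ k) ≠ 0 := pow_ne_zero _ (neg_ne_zero.2 (coord_ne_zero a))
  obtain ⟨f, hf, hf0, hf1⟩ := exists_tangent hτ (div_ne_zero hc hd) z
  have hm' := mul_mem_sections (sigma_pow_mem hτ a k) hf
  rw [mul_div_cancel₀ _ hd] at hm'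
  have hne : sigma τ (z - a) ≠ 0 := fun h' => ha z rfl (by
    rw [← neg_mem_iff, neg_sub]; exact (sigma_eq_zero_iff hτ).1 h')
  refine ⟨_, hm', by simp [hf0], ?_⟩
  rw [deriv_mul ((sigma_pow_mem hτ a k).1 z) (hf.1 z), hf0, mul_zero, zero_add]
  exact mul_ne_zero (pow_ne_zero _ hne) hf1

/-- A section of degree at least three which vanishes at one point and not at another. -/
theorem exists_separate' (hτ : 0 < τ.im) (hc : c ≠ 0) (hm : 3 ≤ m) {z z' : ℂ}
    (h : z' - z ∉ lattice τ) : ∃ f ∈ sections τ m c, f z = 0 ∧ f z' ≠ 0 := by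
  obtain ⟨k, rfl⟩ : ∃ k, m = k + 3 := ⟨m - 3, by omega⟩
  obtain ⟨a, ha⟩ := exists_avoid τ {z'} (Set.countable_singleton _)
  have hd : ((-coord a) ^ k) ≠ 0 := pow_ne_zero _ (neg_ne_zero.2 (coord_ne_zero a))
  obtain ⟨f, hf, hf0, hf1⟩ := exists_separate hτ (div_ne_zero hc hd) h
  have hm' := mul_mem_sections (sigma_pow_mem hτ a k) hf
  rw [mul_div_cancel₀ _ hd] at hm'
  have hne : sigma τ (z' - a) ≠ 0 := fun h' => ha z' rfl (by
    rw [← neg_mem_iff, neg_sub]; exact (sigma_eq_zero_iff hτ).1 h')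
  exact ⟨_, hm', by simp [hf0], mul_ne_zero (pow_ne_zero _ hne) hf1⟩

/-- The combinations have no common zero where the frame has none. -/
theorem exists_tw_ne_zero (hτ : 0 < τ.im) (hc : c ≠ 0) (hm : 2 ≤ m) {r : ℕ} (h : Q r w ≠ 0) :
    ∃ ϑ ∈ sections τ m c, ∃ l ≤ r, tw lam ϑ Q l w ≠ 0 := by
  classical
  have h' : ∃ r, Q r w ≠ 0 := ⟨r, h⟩
  obtain ⟨f, hf, hf0⟩ := exists_ne_zero' hτ hc w.1 hm
  refine ⟨f, hf, Nat.find h', Nat.find_min' h' h, ?_⟩
  rw [tw_first fun l hl => not_not.1 (Nat.find_min h' hl)]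
  exact mul_ne_zero hf0 (Nat.find_spec h')

/-- Proportional combinations over different points of the curve: the frame vanishes. -/
theorem eq_zero_of_tw_eq (hτ : 0 < τ.im) (hc : c ≠ 0) (hm : 3 ≤ m) {d : ℂ} {n : ℕ}
    (h : ∀ ϑ ∈ sections τ m c, ∀ r ≤ n, tw lam ϑ Q r w' = d * tw lam ϑ Q r w)
    (hz : w'.1 - w.1 ∉ lattice τ) : ∀ r ≤ n, Q r w' = 0 ∧ d * Q r w = 0 := by
  rcases eq_or_ne d 0 with rfl | hd
  · intro r hr
    refine ⟨?_, zero_mul _⟩
    induction r using Nat.strong_induction_on with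
    | _ r ih =>
      obtain ⟨f, hf, hf0⟩ := exists_ne_zero' hτ hc w'.1 (le_trans (by norm_num) hm)
      have := h f hf r hr
      rw [tw_first fun l hl => ih l hl (hl.le.trans hr), zero_mul] at this
      exact (mul_eq_zero.1 this).resolve_left hf0
  suffices ∀ r ≤ n, Q r w' = 0 ∧ Q r w = 0 from
    fun r hr => ⟨(this r hr).1, by rw [(this r hr).2, mul_zero]⟩
  intro r hr
  induction r using Nat.strong_induction_on with
  | _ r ih =>
    obtain ⟨f, hf, hf0, hf1⟩ := exists_separate' hτ hc hm hz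
    obtain ⟨g, hg, hg0, hg1⟩ := exists_separate' hτ hc hm (z := w'.1) (z' := w.1)
      fun hc' => hz (by rwa [← neg_mem_iff, neg_sub])
    have e1 := h f hf r hr
    have e2 := h g hg r hr
    rw [tw_first fun l hl => (ih l hl (hl.le.trans hr)).1,
      tw_first fun l hl => (ih l hl (hl.le.trans hr)).2] at e1 e2
    rw [hf0, zero_mul, mul_zero, mul_eq_zero] at e1
    rw [hg0, zero_mul, eq_comm, mul_eq_zero, mul_eq_zero] at e2
    exact ⟨e1.resolve_left hf1, (e2.resolve_left hd).resolve_left hg1⟩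

/-- Proportional combinations over one point of the curve: the frames are proportional. -/
theorem frame_eq_of_tw_eq (hτ : 0 < τ.im) (hc : c ≠ 0) (hm : 2 ≤ m) {d : ℂ} {n : ℕ}
    (h : ∀ ϑ ∈ sections τ m c, ∀ r ≤ n, tw lam ϑ Q r w' = d * tw lam ϑ Q r w)
    (hz : w'.1 = w.1) : ∀ r ≤ n, Q r w' = d * Q r w := by
  intro r hr
  induction r using Nat.strong_induction_on with
  | _ r ih =>
    obtain ⟨f, hf, hf0⟩ := exists_ne_zero' hτ hc w.1 hm
    have e := h f hf r hr
    simp only [tw, hz, sum_range_succ, mul_add, mul_sum, Nat.choose_self, Nat.cast_one,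
      Nat.sub_self, pow_zero, one_mul, iteratedDeriv_zero] at e
    rw [sum_congr rfl fun l hl => by
      rw [ih l (mem_range.1 hl) ((mem_range.1 hl).le.trans hr)]] at e
    simp only [mul_left_comm d] at e
    exact mul_left_cancel₀ hf0 (add_left_cancel e)

/-- Proportional differentials: the direction along the curve vanishes. -/
theorem tangent_of_tw_eq [NormedAddCommGroup M] [NormedSpace ℂ M] (hτ : 0 < τ.im) (hc : c ≠ 0)
    (hm : 3 ≤ m) {d : ℂ} {v : ℂ × M} (hQ : ∀ r, DifferentiableAt ℂ (Q r) w) {n : ℕ}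
    (h : ∀ ϑ ∈ sections τ m c, ∀ r ≤ n, fderiv ℂ (tw lam ϑ Q r) w v = d * tw lam ϑ Q r w) :
    ((∃ r ≤ n, Q r w ≠ 0) → v.1 = 0) ∧
      (v.1 = 0 → ∀ r ≤ n, fderiv ℂ (Q r) w v = d * Q r w) := by
  classical
  have hd : ∀ {ϑ : ℂ → ℂ}, ϑ ∈ sections τ m c → ∀ r, fderiv ℂ (tw lam ϑ Q r) w v =
      ∑ l ∈ range (r + 1), (r.choose l : ℂ) * lam ^ (r - l) *
        (v.1 * iteratedDeriv (r - l + 1) ϑ w.1 * Q l w
          + iteratedDeriv (r - l) ϑ w.1 * fderiv ℂ (Q l) w v) := by
    intro ϑ hϑ r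
    have hk : ∀ k, HasFDerivAt (fun x : ℂ × M => iteratedDeriv k ϑ x.1)
        ((iteratedDeriv (k + 1) ϑ w.1) • ContinuousLinearMap.fst ℂ ℂ M) w := fun k => by
      have h1 : HasDerivAt (iteratedDeriv k ϑ) (iteratedDeriv (k + 1) ϑ w.1) w.1 := by
        rw [iteratedDeriv_succ]
        exact ((hϑ.1.contDiff (n := (k + 1 : ℕ))).differentiable_iteratedDeriv k
          (by exact_mod_cast k.lt_succ_self) _).hasDerivAt
      exact (h1.comp_hasFDerivAt w hasFDerivAt_fst).congr_fderiv rfl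
    have := HasFDerivAt.fun_sum (u := range (r + 1)) fun l _ =>
      (((hk (r - l)).const_mul ((r.choose l : ℂ) * lam ^ (r - l))).mul (hQ l).hasFDerivAt)
    change fderiv ℂ (fun y => ∑ i ∈ range (r + 1),
      ((fun y : ℂ × M => (r.choose i : ℂ) * lam ^ (r - i) * iteratedDeriv (r - i) ϑ y.1) * Q i) y) w v = _
    rw [this.fderiv, _root_.sum_apply]
    refine sum_congr rfl fun l _ => ?_
    simp
    ring
  refine ⟨fun hne => ?_, fun hv r hr => ?_⟩
  · have hne' : ∃ r, Q r w ≠ 0 := hne.imp fun r hr => hr.2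
    obtain ⟨r₁, hr₁, hr₁'⟩ := hne
    set r₀ := Nat.find hne' with hr₀
    have hr₀n : r₀ ≤ n := (Nat.find_min' hne' hr₁').trans hr₁
    have hlow : ∀ l < r₀, Q l w = 0 := fun l hl => not_not.1 (Nat.find_min hne' hl)
    have hlowd : ∀ l < r₀, fderiv ℂ (Q l) w v = 0 := by
      intro l
      induction l using Nat.strong_induction_on with
      | _ l ih =>
        intro hl
        obtain ⟨f, hf, hf0⟩ := exists_ne_zero' hτ hc w.1 (le_trans (by norm_num) hm)
        have e := h f hf l (hl.le.trans hr₀n)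
        rw [hd hf, tw_first (fun i hi => hlow i (hi.trans hl)), hlow l hl, mul_zero, mul_zero,
          sum_range_succ, sum_eq_zero fun i hi => by
            rw [hlow i (by rw [mem_range] at hi; omega),
              ih i (mem_range.1 hi) (by rw [mem_range] at hi; omega)]
            ring] at e
        simpa [hlow l hl, hf0] using e
    obtain ⟨f, hf, hf0, hf1⟩ := exists_tangent' hτ hc hm w.1
    have e := h f hf r₀ hr₀n
    rw [hd hf, tw_first hlow, hf0, zero_mul, mul_zero, sum_range_succ, sum_eq_zero fun i hi => by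
      rw [hlow i (mem_range.1 hi), hlowd i (mem_range.1 hi)]; ring] at e
    simpa [hf0, hf1, Nat.find_spec hne', hr₀] using e
  induction r using Nat.strong_induction_on with
  | _ r ih =>
    obtain ⟨f, hf, hf0⟩ := exists_ne_zero' hτ hc w.1 (le_trans (by norm_num) hm)
    have e := h f hf r hr
    rw [hd hf] at e
    simp only [hv, zero_mul, zero_add, tw, sum_range_succ, mul_add, mul_sum, Nat.choose_self,
      Nat.cast_one, Nat.sub_self, pow_zero, one_mul, iteratedDeriv_zero] at e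
    rw [sum_congr rfl fun l hl => by
      rw [ih l (mem_range.1 hl) ((mem_range.1 hl).le.trans hr)]] at e
    simp only [mul_left_comm d, mul_assoc] at e
    exact mul_left_cancel₀ hf0 (add_left_cancel e)

end Vale.Agent.P296.Ample
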