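import Vale.Agent.P296.Ample.UpSection
import Vale.Agent.P296.Ample.Separate
import Vale.Agent.P296.Ample.Fibre

/-!
# P296: unipotent frames of quadrics and the sections of `O(2)` they give

A frame is a family of functions quadratic on the fibres, defined upstairs in both charts, whose
descent along `(z, t) ↦ (z + τ, t + kap)` is binomial. Twisted by theta functions of degree four on
`ℂ / (ℤ + qτℤ)` it gives sections of `O(2)` on `P(E_q)`.
-/

noncomputable section

namespace Vale.Agent.P296.Ample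

open Model Finset Matrix
open scoped Real

variable {τ : ℂ} {k : ℕ}

theorem IsHom.sum {α : Type*} (s : Finset α) (c : α → ℂ) {f : α → V → ℂ}
    (h : ∀ i ∈ s, IsHom k (f i)) : IsHom k fun x => ∑ i ∈ s, c i * f i x := by
  choose p hp he using h
  refine ⟨∑ i ∈ s.attach, MvPolynomial.C (c i.1) * p i.1 i.2,
    MvPolynomial.IsHomogeneous.sum _ _ _ fun i _ => (hp i.1 i.2).C_mul _, fun x => ?_⟩
  show ∑ i ∈ s, c i * f i x = _
  rw [map_sum, ← s.sum_attach]
  exact Finset.sum_congr rfl fun i _ => by rw [map_mul, MvPolynomial.eval_C, he i.1 i.2]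

theorem IsHom.apply_smul {f : V → ℂ} (h : IsHom k f) (a : ℂ) (x : V) :
    f (a • x) = a ^ k * f x := by
  obtain ⟨p, hp, he⟩ := h
  rw [he, he, MvPolynomial.eval_eq, MvPolynomial.eval_eq, mul_sum]
  refine Finset.sum_congr rfl fun d hd => ?_
  have hdeg : d.degree = k := hp.degree_eq_sum_deg_support hd ▸ rfl
  rw [← hdeg, Finsupp.degree_apply, ← prod_pow_eq_pow_sum, mul_left_comm, ← prod_mul_distrib]
  refine congrArg _ (Finset.prod_congr rfl fun i _ => ?_)
  rcases i with i | i <;> simp [mul_pow]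

/-- Binomial translations compose. -/
theorem binom_comp (f : ℕ → ℂ) (a b : ℂ) (r : ℕ) :
    ∑ l ∈ range (r + 1), (r.choose l : ℂ) * a ^ (r - l) *
        ∑ i ∈ range (l + 1), (l.choose i : ℂ) * b ^ (l - i) * f i =
      ∑ i ∈ range (r + 1), (r.choose i : ℂ) * (a + b) ^ (r - i) * f i := by
  let L : Polynomial ℂ →ₗ[ℂ] ℂ := Polynomial.lsum fun i => (LinearMap.id : ℂ →ₗ[ℂ] ℂ).smulRight (f i)
  have hL : ∀ (x : ℂ) (n : ℕ), L ((Polynomial.X + Polynomial.C x) ^ n)
      = ∑ i ∈ range (n + 1), (n.choose i : ℂ) * x ^ (n - i) * f i := fun x n => by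
    rw [add_pow, map_sum]
    refine sum_congr rfl fun i _ => ?_
    rw [show Polynomial.X ^ i * Polynomial.C x ^ (n - i) * (n.choose i : Polynomial ℂ)
      = Polynomial.monomial i ((n.choose i : ℂ) * x ^ (n - i)) by
        rw [← Polynomial.C_mul_X_pow_eq_monomial, map_mul, map_pow, map_natCast]; ring]
    simp [L, Polynomial.lsum_apply, Polynomial.sum_monomial_index]
  calc _ = L (∑ l ∈ range (r + 1),
        ((r.choose l : ℂ) * a ^ (r - l)) • (Polynomial.X + Polynomial.C b) ^ l) := by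
        simp [map_sum, hL]
    _ = L (((Polynomial.X + Polynomial.C b) + Polynomial.C a) ^ r) := by
        rw [add_pow _ (Polynomial.C a)]
        exact congrArg L (sum_congr rfl fun l _ => by
          rw [Polynomial.smul_eq_C_mul, map_mul, map_pow, map_natCast]; ring)
    _ = _ := by rw [add_assoc, ← Polynomial.C_add, hL, add_comm b a]

/-- A binomial family of quadratic functions upstairs, of length `n + 1`. -/
structure Frame (τ : ℂ) where
  n : ℕ
  Q : ℕ → ℂ → ℂ → V → ℂ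
  Qi : ℕ → ℂ → ℂ → V → ℂ
  hom : ∀ r z t, IsHom 2 (Q r z t)
  homInf : ∀ r z s, IsHom 2 (Qi r z s)
  hol : ∀ r, Differentiable ℂ fun p : ℂ × ℂ × V => Q r p.1 p.2.1 p.2.2
  holInf : ∀ r, Differentiable ℂ fun p : ℂ × ℂ × V => Qi r p.1 p.2.1 p.2.2
  glue : ∀ r z t x, t ≠ 0 → Qi r z t⁻¹ (atInfty τ z t x) = Q r z t x
  per : ∀ r z t x, Q r (z + 1) t x = Q r z t x
  perTau : ∀ r ≤ n, ∀ z t x, Q r (z + τ) (t + kap) (x.1, (m τ z)⁻¹ * x.2) =
    ∑ l ∈ range (r + 1), (r.choose l : ℂ) * kap ^ (r - l) * Q l z t x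

/-- The span of the frames over the point `z`, in the chart `t`. -/
def InSpan {ι : Type*} [Fintype ι] (F : ι → Frame τ) (z : ℂ) (f : ℂ → V → ℂ) : Prop :=
  ∃ c : ι → ℕ → ℂ, ∀ t x, f t x = ∑ i, ∑ r ∈ range ((F i).n + 1), c i r * (F i).Q r z t x

/-- Products of two functions linear on the fibres lie in the span of the frames. -/
def Spans {ι : Type*} [Fintype ι] (F : ι → Frame τ) : Prop :=
  ∀ z p0 p1 p2 u0 u1 u2, Adm (thd τ 0 z) (thd τ 1 z) (thd τ 2 z) p0 p1 p2 →
    Adm (thd τ 0 z) (thd τ 1 z) (thd τ 2 z) u0 u1 u2 →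
    InSpan F z fun t x => lin (thd τ 0 z) (thd τ 1 z) p0 p1 p2 t x.1 x.2
      * lin (thd τ 0 z) (thd τ 1 z) u0 u1 u2 t x.1 x.2

namespace Frame

variable (F : Frame τ)

theorem iterate (j : ℕ) : ∀ r ≤ F.n, ∀ z t x,
    F.Q r (z + j * τ) (t + j * kap) (x.1, (∏ i ∈ range j, m τ (z + (i : ℂ) * τ))⁻¹ * x.2) =
      ∑ l ∈ range (r + 1), (r.choose l : ℂ) * ((j : ℂ) * kap) ^ (r - l) * F.Q l z t x := by
  induction j with
  | zero =>
    intro r hr z t x
    rw [sum_range_succ, sum_eq_zero fun l hl => by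
      rw [Nat.cast_zero, zero_mul, zero_pow (by rw [mem_range] at hl; omega)]; ring]
    simp
  | succ j ih =>
    intro r hr z t x
    rw [show z + ((j + 1 : ℕ) : ℂ) * τ = z + j * τ + τ by push_cast; ring,
      show t + ((j + 1 : ℕ) : ℂ) * kap = t + j * kap + kap by push_cast; ring,
      prod_range_succ, mul_inv, mul_comm _ (m τ (z + (j : ℂ) * τ))⁻¹, mul_assoc,
      F.perTau r hr (z + j * τ) (t + j * kap)
        (x.1, (∏ i ∈ range j, m τ (z + (i : ℂ) * τ))⁻¹ * x.2),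
      sum_congr rfl fun l hl => by
        rw [ih l (by rw [mem_range] at hl; omega) z t x],
      binom_comp, show kap + (j : ℂ) * kap = ((j + 1 : ℕ) : ℂ) * kap by push_cast; ring]

/-- The factor of the theta functions which twist the frames. -/
def twC (τ : ℂ) (q : ℕ) : ℂ := Complex.exp (-(4 * π * Complex.I * q * τ))

/-- The weight of the derivatives in the twisted combinations. -/
def twL (q : ℕ) : ℂ := -(3 * (q : ℂ) / 2)

theorem eP_sq (q : ℕ) (z : ℂ) : eP τ q z ^ 2 = twC τ q * (Theta.coord z)⁻¹ ^ 4 := by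
  rw [eP, twC, Theta.coord, ← Complex.exp_neg, ← Complex.exp_nat_mul, ← Complex.exp_nat_mul,
    ← Complex.exp_add]
  ring_nf

theorem differentiable_tw {Q : ℕ → ℂ → ℂ → V → ℂ}
    (hQ : ∀ r, Differentiable ℂ fun p : ℂ × ℂ × V => Q r p.1 p.2.1 p.2.2) {ϑ : ℂ → ℂ}
    (hϑ : Differentiable ℂ ϑ) (lam : ℂ) (r : ℕ) :
    Differentiable ℂ (tw lam ϑ (fun l (w : ℂ × ℂ × V) => Q l w.1 w.2.1 w.2.2) r) := by
  refine Differentiable.fun_sum fun l _ => Differentiable.mul ?_ (hQ l)
  refine Differentiable.const_mul ?_ _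
  exact ((hϑ.contDiff (n := (r - l + 1 : ℕ))).differentiable_iteratedDeriv (r - l)
    (by exact_mod_cast (r - l).lt_succ_self)).comp differentiable_fst

/-- The section of `O(2)` given by a frame index and a theta function. -/
def toUp (q : ℕ) {r : ℕ} (hr : r ≤ F.n) (ϑ : Theta.sections ((q : ℂ) * τ) 4 (twC τ q)) :
    UpSection τ q 2 where
  P z t x := tw (twL q) ϑ.1 (fun l (w : ℂ × ℂ × V) => F.Q l w.1 w.2.1 w.2.2) r (z, t, x)
  Pinf z s x := tw (twL q) ϑ.1 (fun l (w : ℂ × ℂ × V) => F.Qi l w.1 w.2.1 w.2.2) r (z, s, x)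
  hom z t := IsHom.sum (range (r + 1))
    (fun l => (r.choose l : ℂ) * twL q ^ (r - l) * iteratedDeriv (r - l) ϑ.1 z) fun l _ => F.hom l z t
  homInf z s := IsHom.sum (range (r + 1))
    (fun l => (r.choose l : ℂ) * twL q ^ (r - l) * iteratedDeriv (r - l) ϑ.1 z) fun l _ => F.homInf l z s
  hol := differentiable_tw F.hol ϑ.2.1 _ r
  holInf := differentiable_tw F.holInf ϑ.2.1 _ r
  glue z t x ht := Finset.sum_congr rfl fun l _ => by simp only [F.glue l z t x ht]
  per z t x := tw_add_one ϑ.2 rfl (fun l => F.per l z t x) r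
  perTau z t x := by
    have h := tw_add_tau (Q := fun l (w : ℂ × ℂ × V) => F.Q l w.1 w.2.1 w.2.2)
      (lam := twL q) (κ := q * kap) (w := (z, t, x))
      (w' := (z + q * τ, t + q * kap, x.1, (mq τ q z)⁻¹ * x.2)) ϑ.2
      (by rw [twL, kap]; push_cast; ring) rfl (r := r) fun l hl => F.iterate q l (hl.trans hr) z t x
    have hd : desc τ q z x = (eP τ q z)⁻¹ • ((x.1, (mq τ q z)⁻¹ * x.2) : V) := by
      rw [desc, Prod.smul_mk, smul_eq_mul, mul_inv, mul_assoc]
    have hs : ∀ x' : V, tw (twL q) ϑ.1 (fun l (w : ℂ × ℂ × V) => F.Q l w.1 w.2.1 w.2.2) r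
        (z + q * τ, t + q * kap, (eP τ q z)⁻¹ • x') = (eP τ q z)⁻¹ ^ 2 *
        tw (twL q) ϑ.1 (fun l (w : ℂ × ℂ × V) => F.Q l w.1 w.2.1 w.2.2) r
        (z + q * τ, t + q * kap, x') := fun x' => by
      simp only [tw, (F.hom _ _ _).apply_smul, mul_sum]
      exact Finset.sum_congr rfl fun l _ => by ring
    rw [hd, hs, h, ← eP_sq, ← mul_assoc, ← mul_pow, inv_mul_cancel₀ (show eP τ q (z, t, x).1 ≠ 0 from Complex.exp_ne_zero _),
      one_pow, one_mul]

end Frame

end Vale.Agent.P296.Ample
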