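import Vale.Agent.P296.Ample.Frame
import Vale.Agent.P296.Theta.Jets
import Vale.Agent.P296.Model.Lemmas

/-!
# P296: products of linear functions lie in the span of the frames

A product of two admissible linear functions differs from a combination of the quadrics
`t^r φ_i φ_j + a X φ + a² Y` by `a X φ + a² Y`; as both sides are regular at infinity, `Y = 0` and
`X` is a constant orthogonal to `θ`, `θ'`, `θ''`.
-/

noncomputable section

namespace Vale.Agent.P296.Ample

open Model Finset Matrix Filter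
open scoped Topology

variable {τ : ℂ}

/-- The jets `θ, θ', θ''` are independent everywhere. -/
theorem indep3 (hτ : 0 < τ.im) (z : ℂ) : Indep3 (thd τ 0 z) (thd τ 1 z) (thd τ 2 z) := by
  intro x y u h
  have hf : ∀ f ∈ Theta.sections τ 6 (Theta.seriesFactor τ 6),
      x * iteratedDeriv 0 f z + y * iteratedDeriv 1 f z + u * iteratedDeriv 2 f z = 0 := by
    intro f hf
    obtain ⟨w, rfl⟩ := Theta.exists_series_coords hτ (by norm_num) hf
    have hd : ∀ d, iteratedDeriv d (∑ j : Fin 6, w j • Theta.series τ 6 (j : ℕ)) z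
        = w ⬝ᵥ thd τ d z := fun d => by
      rw [iteratedDeriv_sum fun j _ =>
        ((Theta.differentiable_series hτ (by norm_num) _).const_smul (w j)).contDiff.contDiffAt]
      exact Finset.sum_congr rfl fun j _ => by
        rw [iteratedDeriv_const_smul_field, smul_eq_mul]; rfl
    simp only [hd, ← smul_eq_mul x, ← smul_eq_mul y, ← smul_eq_mul u, ← dotProduct_smul,
      ← dotProduct_add, h, dotProduct_zero]
  have hc := Theta.seriesFactor_ne_zero (τ := τ) (n := 6)
  refine ⟨?_, ?_, ?_⟩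
  · obtain ⟨f, hm, hj⟩ := Theta.exists_jet hτ hc z (n := 6) (k := 3) (by norm_num)
      (fun j => if j = 0 then 1 else 0)
    have := hf f hm
    rw [hj 0 (by norm_num), hj 1 (by norm_num), hj 2 (by norm_num)] at this
    simpa using this
  · obtain ⟨f, hm, hj⟩ := Theta.exists_jet hτ hc z (n := 6) (k := 3) (by norm_num)
      (fun j => if j = 1 then 1 else 0)
    have := hf f hm
    rw [hj 0 (by norm_num), hj 1 (by norm_num), hj 2 (by norm_num)] at this
    simpa using this
  · obtain ⟨f, hm, hj⟩ := Theta.exists_jet hτ hc z (n := 6) (k := 3) (by norm_num)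
      (fun j => if j = 2 then 1 else 0)
    have := hf f hm
    rw [hj 0 (by norm_num), hj 1 (by norm_num), hj 2 (by norm_num)] at this
    simpa using this

section InSpan

variable {ι : Type*} [Fintype ι] {F : ι → Frame τ} {z : ℂ}

theorem InSpan.add {f g : ℂ → V → ℂ} (hf : InSpan F z f) (hg : InSpan F z g) :
    InSpan F z fun t x => f t x + g t x := by
  obtain ⟨c, hc⟩ := hf
  obtain ⟨d, hd⟩ := hg
  exact ⟨fun i r => c i r + d i r, fun t x => by
    simp only [hc, hd, ← Finset.sum_add_distrib, add_mul]⟩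

theorem InSpan.mul_left {f : ℂ → V → ℂ} (hf : InSpan F z f) (a : ℂ) :
    InSpan F z fun t x => a * f t x := by
  obtain ⟨c, hc⟩ := hf
  exact ⟨fun i r => a * c i r, fun t x => by simp only [hc, Finset.mul_sum, mul_assoc]⟩

theorem InSpan.sum {α : Type*} (s : Finset α) {f : α → ℂ → V → ℂ}
    (h : ∀ e ∈ s, InSpan F z (f e)) : InSpan F z fun t x => ∑ e ∈ s, f e t x := by
  classical
  induction s using Finset.induction with
  | empty => exact ⟨fun _ _ => 0, fun t x => by simp⟩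
  | insert e s he ih =>
    simp only [Finset.sum_insert he]
    exact (h e (Finset.mem_insert_self e s)).add (ih fun d hd => h d (Finset.mem_insert_of_mem hd))

/-- A function in the span, seen in the chart at infinity, extends continuously to `s = 0`. -/
theorem InSpan.exists_limit {f : ℂ → V → ℂ} (hf : InSpan F z f) (y : V) :
    ∃ l, Tendsto (fun s : ℂ => f s⁻¹ (fromInfty τ z s y)) (𝓝[≠] 0) (𝓝 l) := by
  obtain ⟨c, hc⟩ := hf
  let g : ℂ → ℂ := fun s => ∑ i, ∑ r ∈ range ((F i).n + 1), c i r * (F i).Qi r z s y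
  have hg : Continuous g := continuous_finsetSum _ fun i _ => continuous_finsetSum _ fun r _ =>
    (((F i).holInf r).continuous.comp (f := fun s : ℂ => (z, s, y)) (by fun_prop)).const_mul _
  refine ⟨g 0, ((hg.tendsto 0).mono_left nhdsWithin_le_nhds).congr' ?_⟩
  filter_upwards [self_mem_nhdsWithin] with s (hs : s ≠ 0)
  rw [hc]
  refine Finset.sum_congr rfl fun i _ => Finset.sum_congr rfl fun r _ => ?_
  rw [← (F i).glue r z s⁻¹ _ (inv_ne_zero hs), inv_inv, atInfty_fromInfty τ z hs]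

end InSpan

/-- The linear functions in the chart at infinity. -/
theorem lin_fromInfty {z s : ℂ} (hs : s ≠ 0) {p0 p1 p2 : Fin 6 → ℂ}
    (hp : Adm (thd τ 0 z) (thd τ 1 z) (thd τ 2 z) p0 p1 p2) (y : V) :
    lin (thd τ 0 z) (thd τ 1 z) p0 p1 p2 s⁻¹ (fromInfty τ z s y).1 (fromInfty τ z s y).2
      = lin (thd τ 2 z) (thd τ 1 z) p2 p1 p0 s y.1 y.2 := by
  simp only [Adm, dotProduct_comm _ p0, dotProduct_comm _ p1, dotProduct_comm _ p2] at hp
  simp only [lin, fromInfty, Gi, dotProduct_add, dotProduct_smul, add_dotProduct, smul_dotProduct,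
    smul_eq_mul]
  simp only [dotProduct_comm _ p0, dotProduct_comm _ p1, dotProduct_comm _ p2]
  field_simp
  linear_combination y.2 * s ^ 2 * hp

/-- A polynomial in `1 / s` with a limit at `0` is constant. -/
theorem eq_C_of_tendsto_inv {P : Polynomial ℂ} {l : ℂ}
    (h : Tendsto (fun s : ℂ => P.eval s⁻¹) (𝓝[≠] 0) (𝓝 l)) : P = Polynomial.C l := by
  rcases lt_or_ge 0 P.degree with hd | hd
  · exact absurd h.norm (not_tendsto_nhds_of_tendsto_atTop
      (P.tendsto_norm_atTop hd (tendsto_norm_inv_nhdsNE_zero_atTop)) _)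
  · obtain ⟨a, rfl⟩ : ∃ a, P = Polynomial.C a := ⟨_, Polynomial.eq_C_of_degree_le_zero hd⟩
    simp only [Polynomial.eval_C] at h
    rw [tendsto_nhds_unique tendsto_const_nhds h]

/-- A quadric `a X φ + a² Y` regular at infinity is `a g φ` with `g ⊥ θ, θ', θ''`. -/
theorem residual {z : ℂ} {X : Fin 6 → Polynomial ℂ} {Y : Polynomial ℂ} {f : ℂ → V → ℂ}
    (hf : ∀ t x, f t x = x.2 * (∑ k, (X k).eval t * x.1 k) + x.2 ^ 2 * Y.eval t)
    (hlim : ∀ y, ∃ l, Tendsto (fun s : ℂ => f s⁻¹ (fromInfty τ z s y)) (𝓝[≠] 0) (𝓝 l)) :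
    ∃ g : Fin 6 → ℂ, (∀ d < 3, thd τ d z ⬝ᵥ g = 0) ∧ f = fun _ x => x.2 * (g ⬝ᵥ x.1) := by
  obtain ⟨l0, hl0⟩ := hlim (0, 1)
  have h0 : ∀ s : ℂ, s ≠ 0 → f s⁻¹ (fromInfty τ z s (0, 1))
      = -(∑ k, (X k).eval s⁻¹ * Gi τ z s k) / s ^ 3 + Y.eval s⁻¹ / s ^ 4 := fun s hs => by
    simp only [hf, fromInfty, Pi.add_apply, Pi.smul_apply, Pi.zero_apply, smul_eq_mul, mul_zero,
      zero_add, Finset.mul_sum, ← Finset.sum_neg_distrib, Finset.sum_div]
    congr 1
    · exact Finset.sum_congr rfl fun k _ => by field_simp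
    · field_simp
  have hX : ∀ k, ∃ g, X k = Polynomial.C g := fun k => by
    obtain ⟨l, hl⟩ := hlim (Pi.single k 1, 1)
    refine ⟨_, eq_C_of_tendsto_inv ((hl0.sub hl).congr' ?_)⟩
    filter_upwards [self_mem_nhdsWithin] with s (hs : s ≠ 0)
    rw [h0 s hs, hf]
    simp only [fromInfty, Pi.add_apply, Pi.smul_apply, smul_eq_mul, mul_add, Finset.sum_add_distrib,
      Pi.single_apply, mul_ite, mul_one, mul_zero, Finset.sum_ite_eq', Finset.mem_univ, if_true]
    rw [Finset.mul_sum, ← Finset.sum_neg_distrib, Finset.sum_div]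
    rw [show ∑ i, -((X i).eval s⁻¹ * Gi τ z s i) / s ^ 3
        = ∑ i, -1 / s ^ 2 * ((X i).eval s⁻¹ * (1 / s * Gi τ z s i)) from
      Finset.sum_congr rfl fun i _ => by field_simp]
    field_simp
    ring
  choose g hg using hX
  have hGi : ∀ s : ℂ, ∑ k, (X k).eval s⁻¹ * Gi τ z s k
      = g ⬝ᵥ thd τ 0 z + s * (g ⬝ᵥ thd τ 1 z) + s ^ 2 * (g ⬝ᵥ thd τ 2 z) := fun s => by
    simp only [hg, Polynomial.eval_C, Gi, Pi.add_apply, Pi.smul_apply, smul_eq_mul, dotProduct,
      Finset.mul_sum, ← Finset.sum_add_distrib]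
    exact Finset.sum_congr rfl fun k _ => by ring
  have hs0 : ∀ n : ℕ, 0 < n → Tendsto (fun s : ℂ => s ^ n) (𝓝[≠] 0) (𝓝 0) := fun n hn =>
    ((continuous_pow n).tendsto' 0 0 (zero_pow hn.ne')).mono_left nhdsWithin_le_nhds
  have hc : ∀ A : ℂ, Tendsto (fun _ : ℂ => A) (𝓝[≠] (0 : ℂ)) (𝓝 A) := fun A => tendsto_const_nhds
  set A := g ⬝ᵥ thd τ 0 z
  set B := g ⬝ᵥ thd τ 1 z
  set C := g ⬝ᵥ thd τ 2 z
  have hY : Y = 0 := by
    rw [← map_zero Polynomial.C]
    refine eq_C_of_tendsto_inv ?_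
    have h := ((hs0 4 (by norm_num)).mul hl0).add ((hs0 1 one_pos).mul
      (((hc A).add ((hs0 1 one_pos).mul (hc B))).add ((hs0 2 two_pos).mul (hc C))))
    simp only [zero_mul, add_zero] at h
    refine h.congr' ?_
    filter_upwards [self_mem_nhdsWithin] with s (hs : s ≠ 0)
    rw [h0 s hs, hGi]
    field_simp
    ring
  have h1 : ∀ s : ℂ, s ≠ 0 → f s⁻¹ (fromInfty τ z s (0, 1))
      = -(A + s * B + s ^ 2 * C) / s ^ 3 := fun s hs => by
    rw [h0 s hs, hGi, hY, Polynomial.eval_zero, zero_div, add_zero]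
  have hA : A = 0 := by
    refine tendsto_nhds_unique (hc A) ?_
    have h := (((hs0 3 (by norm_num)).mul hl0).neg.sub ((hs0 1 one_pos).mul (hc B))).sub
      ((hs0 2 two_pos).mul (hc C))
    simp only [zero_mul, neg_zero, sub_zero] at h
    refine h.congr' ?_
    filter_upwards [self_mem_nhdsWithin] with s (hs : s ≠ 0)
    rw [h1 s hs]
    field_simp
    ring
  have hB : B = 0 := by
    refine tendsto_nhds_unique (hc B) ?_
    have h := ((hs0 2 two_pos).mul hl0).neg.sub ((hs0 1 one_pos).mul (hc C))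
    simp only [zero_mul, neg_zero, sub_zero] at h
    refine h.congr' ?_
    filter_upwards [self_mem_nhdsWithin] with s (hs : s ≠ 0)
    rw [h1 s hs, hA]
    field_simp
    ring
  have hC : C = 0 := by
    refine tendsto_nhds_unique (hc C) ?_
    have h := ((hs0 1 one_pos).mul hl0).neg
    simp only [zero_mul, neg_zero] at h
    refine h.congr' ?_
    filter_upwards [self_mem_nhdsWithin] with s (hs : s ≠ 0)
    rw [h1 s hs, hA, hB]
    field_simp
    ring
  refine ⟨g, fun d hd => ?_, funext fun t => funext fun x => ?_⟩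
  · rw [dotProduct_comm]
    interval_cases d <;> assumption
  · simp [hf, hY, hg, dotProduct]

/-- The frames span the products of linear functions. -/
theorem spans_of_form {ι : Type*} [Fintype ι] (F : ι → Frame τ)
    (hQ : ∀ z (i j : Fin 6) (r : ℕ), r ≤ 4 → ∃ (X : Fin 6 → Polynomial ℂ) (Y : Polynomial ℂ),
      InSpan F z fun t x =>
        t ^ r * x.1 i * x.1 j + x.2 * (∑ k, (X k).eval t * x.1 k) + x.2 ^ 2 * Y.eval t)
    (hG : ∀ z (g : Fin 6 → ℂ), (∀ d < 3, thd τ d z ⬝ᵥ g = 0) →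
      InSpan F z fun _ x => x.2 * (g ⬝ᵥ x.1)) : Spans F := by
  classical
  intro z p0 p1 p2 u0 u1 u2 hp hu
  choose X Y hXY using fun (e : Fin 6 × Fin 6 × Fin 5) =>
    hQ z e.1 e.2.1 e.2.2 (Nat.le_of_lt_succ e.2.2.isLt)
  let quad : (Fin 6 → ℂ) → (Fin 6 → ℂ) → (Fin 6 → ℂ) → Fin 6 → Polynomial ℂ := fun q0 q1 q2 k =>
    .C (q2 k) * .X ^ 2 + .C (q1 k) * .X + .C (q0 k)
  let ell : (Fin 6 → ℂ) → (Fin 6 → ℂ) → Polynomial ℂ := fun q1 q2 =>
    .C (thd τ 0 z ⬝ᵥ q2) * .X + .C (thd τ 1 z ⬝ᵥ q2 + thd τ 0 z ⬝ᵥ q1)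
  let c : Fin 6 × Fin 6 × Fin 5 → ℂ := fun e =>
    (quad p0 p1 p2 e.1 * quad u0 u1 u2 e.2.1).coeff e.2.2
  have hdeg : ∀ q0 q1 q2 k, (quad q0 q1 q2 k).natDegree ≤ 2 := fun q0 q1 q2 k =>
    Polynomial.natDegree_quadratic_le
  have hlin : ∀ q0 q1 q2 t (x : V), lin (thd τ 0 z) (thd τ 1 z) q0 q1 q2 t x.1 x.2
      = ∑ k, (quad q0 q1 q2 k).eval t * x.1 k + x.2 * (ell q1 q2).eval t := fun q0 q1 q2 t x => by
    simp only [lin, quad, ell, dotProduct, Polynomial.eval_add, Polynomial.eval_mul,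
      Polynomial.eval_pow, Polynomial.eval_C, Polynomial.eval_X, Pi.add_apply, Pi.smul_apply,
      smul_eq_mul, Finset.mul_sum, Finset.sum_mul, ← Finset.sum_add_distrib]
    exact Finset.sum_congr rfl fun k _ => by ring
  let S : ℂ → V → ℂ := fun t x => ∑ e, c e * (t ^ (e.2.2 : ℕ) * x.1 e.1 * x.1 e.2.1 +
    x.2 * (∑ k, (X e k).eval t * x.1 k) + x.2 ^ 2 * (Y e).eval t)
  have hS : InSpan F z S := InSpan.sum _ fun e _ => (hXY e).mul_left (c e)
  let D : ℂ → V → ℂ := fun t x => lin (thd τ 0 z) (thd τ 1 z) p0 p1 p2 t x.1 x.2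
      * lin (thd τ 0 z) (thd τ 1 z) u0 u1 u2 t x.1 x.2 - S t x
  have hlim : ∀ y, ∃ l, Tendsto (fun s : ℂ => D s⁻¹ (fromInfty τ z s y)) (𝓝[≠] 0) (𝓝 l) := by
    intro y
    obtain ⟨l, hl⟩ := hS.exists_limit y
    let N : ℂ → ℂ := fun s => lin (thd τ 2 z) (thd τ 1 z) p2 p1 p0 s y.1 y.2
      * lin (thd τ 2 z) (thd τ 1 z) u2 u1 u0 s y.1 y.2
    have hN : Continuous N := by
      simp only [N, lin, dotProduct]
      fun_prop
    refine ⟨_, (((hN.tendsto 0).mono_left nhdsWithin_le_nhds).sub hl).congr' ?_⟩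
    filter_upwards [self_mem_nhdsWithin] with s (hs : s ≠ 0)
    simp only [D, N, lin_fromInfty hs hp, lin_fromInfty hs hu]
  obtain ⟨g, hg, hD⟩ := residual (X := fun k => ell u1 u2 * quad p0 p1 p2 k
      + ell p1 p2 * quad u0 u1 u2 k - ∑ e, .C (c e) * X e k)
    (Y := ell p1 p2 * ell u1 u2 - ∑ e, .C (c e) * Y e) (f := D) (fun t x => by
      have hsum : (∑ k, (quad p0 p1 p2 k).eval t * x.1 k) * (∑ k, (quad u0 u1 u2 k).eval t * x.1 k)
          = ∑ e, c e * (t ^ (e.2.2 : ℕ) * x.1 e.1 * x.1 e.2.1) := by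
        rw [Fintype.sum_prod_type, Finset.sum_mul_sum]
        refine Finset.sum_congr rfl fun i _ => ?_
        rw [Fintype.sum_prod_type]
        refine Finset.sum_congr rfl fun j _ => ?_
        rw [show (quad p0 p1 p2 i).eval t * x.1 i * ((quad u0 u1 u2 j).eval t * x.1 j)
            = (quad p0 p1 p2 i * quad u0 u1 u2 j).eval t * (x.1 i * x.1 j) by
          rw [Polynomial.eval_mul]; ring,
          Polynomial.eval_eq_sum_range' (n := 5) (Nat.lt_succ_of_le
            (Polynomial.natDegree_mul_le.trans (Nat.add_le_add (hdeg ..) (hdeg ..)))),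
          ← Fin.sum_univ_eq_sum_range, Finset.sum_mul]
        exact Finset.sum_congr rfl fun r _ => by ring
      have hS' : S t x = (∑ e, c e * (t ^ (e.2.2 : ℕ) * x.1 e.1 * x.1 e.2.1))
          + x.2 * (∑ k, (∑ e, c e * (X e k).eval t) * x.1 k)
          + x.2 ^ 2 * (∑ e, c e * (Y e).eval t) := by
        simp only [S, mul_add, Finset.sum_add_distrib, Finset.sum_mul, Finset.mul_sum]
        rw [Finset.sum_comm (s := univ) (t := univ) (f := fun (k : Fin 6) e =>
          x.2 * (c e * (X e k).eval t * x.1 k))]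
        refine congrArg₂ _ (congrArg₂ _ rfl ?_) (Finset.sum_congr rfl fun e _ => by ring)
        exact Finset.sum_congr rfl fun e _ => Finset.sum_congr rfl fun k _ => by ring
      have hE : ∀ (E : ℂ) (q : Fin 6 → Polynomial ℂ),
          ∑ k, E * (q k).eval t * x.1 k = E * ∑ k, (q k).eval t * x.1 k := fun E q => by
        simp only [Finset.mul_sum, mul_assoc]
      simp only [D, hS', hlin, Polynomial.eval_sub, Polynomial.eval_add, Polynomial.eval_mul,
        Polynomial.eval_finsetSum, Polynomial.eval_C, sub_mul, add_mul, Finset.sum_sub_distrib,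
        Finset.sum_add_distrib, hE]
      linear_combination hsum) hlim
  have := hS.add (hG z g hg)
  obtain ⟨d, hd⟩ := this
  refine ⟨d, fun t x => ?_⟩
  rw [← hd t x]
  have := congrFun (congrFun hD t) x
  simp only [D] at this
  linear_combination this

end Vale.Agent.P296.Ample
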