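import Vale.Agent.P296.Ample.Embedding
import Vale.Agent.P296.Ample.Span
import Vale.Agent.P296.Ample.Jet.Families

/-!
# P296: sections of `O(2)` embed `P(E_q)` for every `q`
-/

noncomputable section

namespace Vale.Agent.P296.Ample

/-- The ampleness target, for every period with positive imaginary part. -/
theorem exists_embeds {τ : ℂ} (hτ : 0 < τ.im) {q : ℕ} (hq : 0 < q) :
    ∃ (k N : ℕ) (S : Fin N → UpSection τ q k), 0 < k ∧ Embeds S := by
  obtain ⟨ι, _, F, hQ, hG⟩ := Jet.exists_families hτ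
  exact exists_embeds_of_spans hτ (spans_of_form F hQ hG) hq

theorem embedsTarget : ∃ τ : ℂ, 0 < τ.im ∧ ∀ q : ℕ, 0 < q →
    ∃ (k N : ℕ) (S : Fin N → UpSection τ q k), 0 < k ∧ Embeds S :=
  ⟨Complex.I, by simp, fun _ hq => exists_embeds (by simp) hq⟩

end Vale.Agent.P296.Ample
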