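import Vale.Agent.P296.Theta.Addition
import Vale.Agent.P296.Model.Data

/-!
# P296: Wronskians of the degree six thetas fill degree twelve

`deg12 τ d` is the derivative at zero of the series of degree twelve. If
`deg12 τ 2 ^ 2 ≠ deg12 τ 4 ^ 2`, `deg12 τ 3 ≠ 0` and `deg12 τ 5 ≠ deg12 τ 1` then every series
of degree twelve, in particular every product of two `th τ i`, is an antisymmetric combination of
`deriv (th τ p) * th τ q`.
-/

noncomputable section

namespace Vale.Agent.P296.Ample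

open Complex Finset Theta

variable {τ : ℂ}

/-- The derivative at zero of the series of degree twelve. -/
def deg12 (τ : ℂ) (d : ℤ) : ℂ := deriv (series τ 12 d) 0

lemma deg12_congr (hτ : 0 < τ.im) {d d' : ℤ} (h : d' % 12 = d % 12) : deg12 τ d' = deg12 τ d := by
  rw [deg12, deg12, series_congr hτ (by norm_num) (j := d) (j' := d') (by exact_mod_cast h)]

lemma deg12_neg (hτ : 0 < τ.im) (d : ℤ) : deg12 τ (-d) = -deg12 τ d := by
  have e : series τ 12 (-d) = fun x => series τ 12 d (-x) := funext fun x => by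
    conv_lhs => rw [show x = -(-x) by ring, series_neg hτ (by norm_num)]
  rw [deg12, deg12, e, deriv_comp_neg, neg_zero]

/-- The class of an integer modulo six. -/
def cls6 (k : ℤ) : Fin 6 := ⟨(k % 6).toNat, by omega⟩

lemma series6_eq_th (hτ : 0 < τ.im) (k : ℤ) : series τ 6 k = Model.th τ (cls6 k) := by
  funext z
  rw [Model.th]
  refine congrFun (series_congr hτ (by norm_num) ?_) z
  simp only [cls6]
  push_cast [Int.toNat_of_nonneg (Int.emod_nonneg k (by norm_num : (6 : ℤ) ≠ 0))]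
  omega

/-- A matrix represents a function by `C (θ', θ)`. -/
def Represents (τ : ℂ) (C : Fin 6 → Fin 6 → ℂ) (f : ℂ → ℂ) : Prop :=
  (∀ p q, C q p = -C p q) ∧
    ∀ z, f z = ∑ p, ∑ q, C p q * (deriv (Model.th τ p) z * Model.th τ q z)

lemma Represents.add {C D : Fin 6 → Fin 6 → ℂ} {f g : ℂ → ℂ} (hf : Represents τ C f)
    (hg : Represents τ D g) :
    Represents τ (fun p q => C p q + D p q) fun z => f z + g z :=
  ⟨fun p q => by dsimp only; rw [hf.1, hg.1]; ring, fun z => by
    simp only [hf.2, hg.2, add_mul, sum_add_distrib]⟩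

lemma Represents.smul {C : Fin 6 → Fin 6 → ℂ} {f : ℂ → ℂ} (a : ℂ) (hf : Represents τ C f) :
    Represents τ (fun p q => a * C p q) fun z => a * f z :=
  ⟨fun p q => by dsimp only; rw [hf.1]; ring, fun z => by simp only [hf.2, mul_sum, mul_assoc]⟩

/-- One Wronskian. -/
lemma represents_pair (hτ : 0 < τ.im) (k l : ℤ) : ∃ C, Represents τ C fun z =>
    series τ 12 (k + l) z * deg12 τ (k - l) + series τ 12 (k + l + 6) z * deg12 τ (k - l + 6) := by
  classical
  refine ⟨fun p q => (if p = cls6 k ∧ q = cls6 l then 1 else 0) -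
    (if p = cls6 l ∧ q = cls6 k then 1 else 0), fun p q => by simp only [and_comm]; ring, fun z => ?_⟩
  have h := series_wronskian hτ (n := 6) (by norm_num) k l z
  norm_num at h
  rw [series6_eq_th hτ k, series6_eq_th hτ l] at h
  simp only [deg12]
  rw [← h]
  simp only [sub_mul, sum_sub_distrib, ite_mul, one_mul, zero_mul, ite_and, sum_ite_eq', mem_univ,
    if_true, sum_ite_irrel, sum_const_zero]
  ring

/-- The inequalities of the nullwerte. -/
structure WronskianSpan (τ : ℂ) : Prop where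
  even : deg12 τ 2 ^ 2 ≠ deg12 τ 4 ^ 2
  three : deg12 τ 3 ≠ 0
  odd : deg12 τ 5 ≠ deg12 τ 1

/-- Two pairs with the same sum fill a class. -/
lemma represents_of_det (hτ : 0 < τ.im) (k₁ l₁ k₂ l₂ : ℤ) (hs : k₂ + l₂ = k₁ + l₁)
    (hdet : deg12 τ (k₁ - l₁) * deg12 τ (k₂ - l₂ + 6) -
      deg12 τ (k₁ - l₁ + 6) * deg12 τ (k₂ - l₂) ≠ 0) (u v : ℂ) :
    ∃ C, Represents τ C fun z =>
      u * series τ 12 (k₁ + l₁) z + v * series τ 12 (k₁ + l₁ + 6) z := by
  obtain ⟨C₁, h₁⟩ := represents_pair hτ k₁ l₁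
  obtain ⟨C₂, h₂⟩ := represents_pair hτ k₂ l₂
  rw [hs] at h₂
  set a₁ := deg12 τ (k₁ - l₁)
  set b₁ := deg12 τ (k₁ - l₁ + 6)
  set a₂ := deg12 τ (k₂ - l₂)
  set b₂ := deg12 τ (k₂ - l₂ + 6)
  refine ⟨_, (congrArg (Represents τ _) (funext fun z => ?_)).mp
    ((h₁.smul ((u * b₂ - v * a₂) / (a₁ * b₂ - b₁ * a₂))).add
      (h₂.smul ((v * a₁ - u * b₁) / (a₁ * b₂ - b₁ * a₂))))⟩
  rw [div_mul_eq_mul_div, div_mul_eq_mul_div, ← add_div, div_eq_iff hdet]
  ring

/-- **Every class of degree twelve is filled by Wronskians.** -/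
theorem represents_class (hτ : 0 < τ.im) (h : WronskianSpan τ) (N : ℤ) (u v : ℂ) :
    ∃ C, Represents τ C fun z => u * series τ 12 N z + v * series τ 12 (N + 6) z := by
  have hn := fun d => deg12_neg hτ d
  have hc : ∀ {d d' : ℤ}, d' % 12 = d % 12 → deg12 τ d' = deg12 τ d := fun h => deg12_congr hτ h
  rcases Int.even_or_odd N with ⟨c, hN⟩ | ⟨c, hN⟩
  · have h1 := represents_of_det hτ (c - 1) (c + 1) (c - 2) (c + 2) (by ring) ?_ u v
    · rwa [show c - 1 + (c + 1) = N by omega] at h1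
    · rw [show c - 1 - (c + 1) = -(2 : ℤ) by ring, show c - 2 - (c + 2) = -(4 : ℤ) by ring,
        show -(4 : ℤ) + 6 = 2 by ring, show -(2 : ℤ) + 6 = 4 by ring, hn, hn]
      intro h0
      exact h.even (by linear_combination -h0)
  · have h1 := represents_of_det hτ c (c + 1) (c - 1) (c + 2) (by ring) ?_ u v
    · rwa [show c + (c + 1) = N by omega] at h1
    · rw [show c - (c + 1) = -(1 : ℤ) by ring, show c - 1 - (c + 2) = -(3 : ℤ) by ring,
        show -(3 : ℤ) + 6 = 3 by ring, show -(1 : ℤ) + 6 = 5 by ring, hn, hn]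
      intro h0
      refine mul_ne_zero h.three (sub_ne_zero.2 h.odd) ?_
      linear_combination h0

/-- **Products of two thetas are antisymmetric combinations of `θ' θ`.** -/
theorem exists_wronskian_repr (hτ : 0 < τ.im) (h : WronskianSpan τ) (i j : Fin 6) :
    ∃ C : Fin 6 → Fin 6 → ℂ, Represents τ C fun z => Model.th τ i z * Model.th τ j z := by
  obtain ⟨C, hC⟩ := represents_class hτ h (((i : ℕ) : ℤ) + (j : ℕ))
    (series τ 12 (((i : ℕ) : ℤ) - (j : ℕ)) 0) (series τ 12 (((i : ℕ) : ℤ) - (j : ℕ) + 6) 0)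
  refine ⟨C, (congrArg (Represents τ C) (funext fun z => ?_)).mp hC⟩
  have e := series_mul hτ (n := 6) (by norm_num) ((i : ℕ) : ℤ) ((j : ℕ) : ℤ) z
  norm_num at e
  simp only [Model.th, e]
  ring

end Vale.Agent.P296.Ample
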